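import Vale.Agent.P281.H864.HK.WInt
import Vale.Agent.P281.H594.TS.Per0
import Vale.Agent.P281.H624.HK.Tools
import Vale.Agent.P281.H713.DefsK

/-!
# P281, T-HK, block D3' (helper594): the form `B` in terms of the classes
-/

open Set Filter Metric MeasureTheory Vale.Agent.P272.K Vale.Agent.P281.H713
open scoped Topology ContDiff ComplexConjugate ComplexOrder

noncomputable section

namespace Vale.Agent.P281.H594.HK

open Vale.Agent.P281.H64.TK Vale.Agent.P281.H64.TK.TS Vale.Agent.P281.H83.HK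
open Vale.Agent.P281.H864.HK (Wint cont_W W_eq W3_comm W3_add_left W3_smul_left W3_sub_left)

variable {d : ℕ} {E Γ : Type} [TopologicalSpace E] [Group Γ] [MulAction Γ E] {S : Sheets d E Γ}
variable {a a' b b' c c' : Fin S.N → Cm d → L2 d}

/-- `(a, b, c, ..., c)`. -/
def ab3 (a b c : Fin S.N → Cm d → L2 d) (k : Fin d) : Fin S.N → Cm d → L2 d :=
  if k.val = 0 then a else if k.val = 1 then b else c

theorem ab3_apply (a b c : Fin S.N → Cm d → L2 d) (k : Fin d) (i : Fin S.N) (z : Cm d) :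
    ab3 a b c k i z = abc (a i z) (b i z) (c i z) k := by
  unfold ab3 abc
  split_ifs <;> rfl

theorem bW_wint (a b c : Fin S.N → Cm d → L2 d) : bW S a b c = Wint S (ab3 a b c) := by
  unfold bW Wint
  congr 1
  funext i z
  rw [W3, W_eq]
  congr 1
  funext k
  exact (ab3_apply a b c k i z).symm

theorem W3_cont {a b c : Cm d → L2 d} {V : Set (Cm d)} (ha : ContinuousOn a V)
    (hb : ContinuousOn b V) (hc : ContinuousOn c V) :
    ContinuousOn (fun z => W3 (a z) (b z) (c z)) V := by
  have h : ContinuousOn (fun z => H864.HK.W fun k => abc (a z) (b z) (c z) k) V := by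
    refine cont_W fun k => ?_
    unfold abc
    split_ifs
    · exact ha
    · exact hb
    · exact hc
  refine h.congr fun z _ => ?_
  rw [W3, W_eq]

theorem bW_comm (hd : 1 < d) (a b c : Fin S.N → Cm d → L2 d) : bW S a b c = bW S b a c := by
  unfold bW
  congr 1
  funext i z
  exact W3_comm hd _ _ _

theorem bW_congr [Subsingleton Γ] (h : ∀ i, ∀ z ∈ ball (0 : Cm d) 3, a i z = a' i z)
    (h' : ∀ i, ∀ z ∈ ball (0 : Cm d) 3, b i z = b' i z) : bW S a b c = bW S a' b' c :=
  TS.int_congr S fun i z hz => by rw [h i z hz, h' i z hz]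

theorem bW_add (hd : 0 < d) (h : ∀ i, ContinuousOn (a i) (ball 0 3))
    (h' : ∀ i, ContinuousOn (a' i) (ball 0 3)) (hb : ∀ i, ContinuousOn (b i) (ball 0 3))
    (hc : ∀ i, ContinuousOn (c i) (ball 0 3)) :
    bW S (fun i z => a i z + a' i z) b c = bW S a b c + bW S a' b c := by
  unfold bW
  rw [← TS.int_add S (fun i => W3_cont (h i) (hb i) (hc i)) (fun i => W3_cont (h' i) (hb i) (hc i))]
  congr 1
  funext i z
  exact W3_add_left hd _ _ _ _

theorem bW_smul (hd : 0 < d) (x : ℂ) (a b c : Fin S.N → Cm d → L2 d) :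
    bW S (fun i z => x • a i z) b c = x * bW S a b c := by
  unfold bW
  rw [← TS.int_mul]
  congr 1
  funext i z
  exact W3_smul_left hd _ _ _ _

theorem W3_zero (hd : 0 < d) (b c : L2 d) : W3 0 b c = 0 := by
  have h := W3_smul_left hd 0 (0 : L2 d) b c
  have h0 : ((0 : ℂ) • (0 : L2 d)) = 0 := by
    ext u v
    simp
  rwa [h0, zero_mul] at h

theorem W3_sum (hd : 0 < d) {ι : Type} (s : Finset ι) (a : ι → L2 d) (b c : L2 d) :
    W3 (∑ k ∈ s, a k) b c = ∑ k ∈ s, W3 (a k) b c := by
  classical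
  induction s using Finset.induction_on with
  | empty => simp [W3_zero hd]
  | insert k s hk ih => rw [Finset.sum_insert hk, Finset.sum_insert hk, W3_add_left hd, ih]

theorem bW_sum (hd : 0 < d) {n : ℕ} (x : Fin n → ℂ) {e : Fin n → Fin S.N → Cm d → L2 d}
    (h : ∀ k i, ContinuousOn (e k i) (ball 0 3)) (hb : ∀ i, ContinuousOn (b i) (ball 0 3))
    (hc : ∀ i, ContinuousOn (c i) (ball 0 3)) :
    bW S (fun i z => ∑ k, x k • e k i z) b c = ∑ k, x k * bW S (e k) b c := by
  have h1 : bW S (fun i z => ∑ k, x k • e k i z) b c =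
      ∑ k, S.int (fun i z => x k * W3 (e k i z) (b i z) (c i z)) := by
    rw [← TS.int_sum S Finset.univ (fun k i z => x k * W3 (e k i z) (b i z) (c i z))
      (fun k i => continuousOn_const.mul (W3_cont (h k i) (hb i) (hc i)))]
    unfold bW
    congr 1
    funext i z
    rw [W3_sum hd]
    exact Finset.sum_congr rfl fun k _ => W3_smul_left hd _ _ _ _
  rw [h1]
  exact Finset.sum_congr rfl fun k _ => TS.int_mul S _ _

theorem cl2_cont (h : Cl2 S a) (i : Fin S.N) : ContinuousOn (a i) (ball 0 3) := fun z hz =>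
  (h.smooth i z hz (mem_univ _)).continuousAt.continuousWithinAt

/-- linear combinations of closed forms -/
theorem cl2_sum {n : ℕ} (x : Fin n → ℂ) {e : Fin n → Fin S.N → Cm d → L2 d}
    (h : ∀ k, Cl2 S (e k)) : Cl2 S (fun i z => ∑ k, x k • e k i z) := by
  classical
  have h1 : ∀ s : Finset (Fin n), Cl2 S (fun i z => ∑ k ∈ s, x k • e k i z) := by
    intro s
    induction s using Finset.induction_on with
    | empty => simpa using H740.TS.cl2_zero
    | insert k s hk ih =>
      have e1 : (fun i z => ∑ k ∈ insert k s, x k • e k i z) =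
          fun i z => x k • e k i z + ∑ k ∈ s, x k • e k i z := by
        funext i z
        exact Finset.sum_insert hk
      rw [e1]
      exact H740.TS.cl2_add (H740.TS.cl2_smul (x k) (h k)) ih
  exact h1 Finset.univ

variable [T2Space E] [Subsingleton Γ] [ContinuousConstSMul Γ E]

omit [T2Space E] in
theorem bW_exact (hd : 0 < d) (h : Exact S a) (hb : Cl2 S b) (hc : Cl2 S c) :
    bW S a b c = 0 := by
  rw [bW_wint]
  refine H864.HK.wint_exact (⟨0, hd⟩ : Fin d) (fun k hk => ?_) ?_
  · unfold ab3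
    have h0 : k.val ≠ 0 := fun h0 => hk (Fin.ext h0)
    rw [if_neg h0]
    split_ifs
    · exact hb
    · exact hc
  · have h1 : ab3 a b c (⟨0, hd⟩ : Fin d) = a := by
      unfold ab3
      rw [if_pos rfl]
    rw [h1]
    exact h

omit [T2Space E] in
theorem bW_exp (hd : 0 < d) {n : ℕ} (M : Mark2 S n) (ha : Cl2 S a) (hb : Cl2 S b) (hc : Cl2 S c) :
    bW S a b c = ∑ k, M.cl a k * bW S (M.b k) b c := by
  have h1 := M.ex a ha
  have h2 := bW_exact hd h1 hb hc
  have hs := cl2_sum (M.cl a) M.closed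
  have h3 : bW S a b c = bW S (fun i z => (a i z - ∑ k, M.cl a k • M.b k i z) +
      ∑ k, M.cl a k • M.b k i z) b c := bW_congr (fun i z _ => by abel) fun i z _ => rfl
  have hdiff : ∀ i, ContinuousOn (fun z => a i z - ∑ k, M.cl a k • M.b k i z) (ball 0 3) := fun i =>
    cl2_cont (H624.TS.cl2_sub ha hs) i
  rw [h3, bW_add hd hdiff (cl2_cont hs) (cl2_cont hb) (cl2_cont hc), h2, zero_add,
    bW_sum hd _ (fun k => cl2_cont (M.closed k)) (cl2_cont hb) (cl2_cont hc)]

omit [T2Space E] [ContinuousConstSMul Γ E] in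
theorem bW_im (ha : Real2 S a) (hb : Real2 S b) (hc : Real2 S c) : (bW S a b c).im = 0 := by
  unfold bW
  rw [TS.int_real S fun i z hz => ?_, Complex.ofReal_im]
  have h1 : W3 (a i z) (b i z) (c i z) = conj (W3 (a i z) (b i z) (c i z)) :=
    H864.HK.W3_conj (fun u v => (Complex.conj_eq_iff_im.2 (ha i z hz u v)).symm)
      (fun u v => (Complex.conj_eq_iff_im.2 (hb i z hz u v)).symm)
      (fun u v => (Complex.conj_eq_iff_im.2 (hc i z hz u v)).symm)
  exact Complex.conj_eq_iff_im.1 h1.symm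

omit [T2Space E] [ContinuousConstSMul Γ E] in
theorem Bc_eq {n : ℕ} (M : Mark2 S n) (hc : Real2 S c) (k l : Fin n) :
    ((Bc M c k l : ℝ) : ℂ) = bW S (M.b k) (M.b l) c := by
  apply Complex.ext
  · simp [Bc]
  · simp [bW_im (M.real k) (M.real l) hc]

omit [T2Space E] in
/-- **The form `B` on classes.** -/
theorem bil_cl (hd : 1 < d) {n : ℕ} (M : Mark2 S n) (ha : Cl2 S a) (hb : Cl2 S b) (hc : Cl2 S c)
    (hr : Real2 S c) : bil (Bc M c) (M.cl a) (M.cl b) = bW S a b c := by
  have hd0 : 0 < d := by omega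
  rw [bW_exp hd0 M ha hb hc]
  unfold bil
  refine Finset.sum_congr rfl fun k _ => ?_
  rw [bW_comm hd, bW_exp hd0 M hb (M.closed k) hc, Finset.mul_sum]
  refine Finset.sum_congr rfl fun l _ => ?_
  rw [Bc_eq M hr, bW_comm hd (M.b l)]
  ring

end Vale.Agent.P281.H594.HK
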