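import Vale.Agent.P281.H594.HK.Gr2

/-!
# P281, T-HK, block D2-HK (helper594): holomorphic dependence of the 2-form on the parameter
-/

open Set Filter Metric
open scoped Topology

noncomputable section

namespace Vale.Agent.P281.H594.HK

open Vale.Agent.P281.H64.TK Vale.Agent.P281.H64.TK.TS Vale.Agent.P281.H603.K
open Vale.Agent.P281.H83.HK
open Vale.Agent.P281.H594.TS (tm tm_eq tm_of tm_nhds tm_fam jac_comp jac_id jac_congr cover1)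
open Vale.Agent.P272.K (Cm)

variable {p d : ℕ} {E Γ : Type} [TopologicalSpace E] [Group Γ] [MulAction Γ E]

/-- The difference quotients of an analytic function. -/
theorem quot_lim {V : Type} [NormedAddCommGroup V] [NormedSpace ℂ V] {G : Cm p × Cm d → V}
    {t₁ : Cm p} {z : Cm d} (hG : AnalyticAt ℂ G (t₁, z)) (x : Cm p) {U : Filter ℂ}
    (hU0 : U ≤ 𝓝 0) (hne : ∀ᶠ s : ℂ in U, s ≠ 0) {z' : ℂ → Cm d} (hz' : Tendsto z' U (𝓝 z)) :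
    Tendsto (fun s : ℂ => s⁻¹ • (G (t₁ + s • x, z' s) - G (t₁, z' s))) U
      (𝓝 (fderiv ℂ G (t₁, z) (x, 0))) := by
  have hGs := hG.hasStrictFDerivAt
  have hlim0 : Tendsto (fun s : ℂ => t₁ + s • x) (𝓝 0) (𝓝 t₁) := by
    have : Continuous fun s : ℂ => t₁ + s • x := by fun_prop
    simpa using this.tendsto 0
  have hx : Tendsto (fun s : ℂ => (t₁ + s • x, z' s)) U (𝓝 (t₁, z)) :=
    (hlim0.mono_left hU0).prodMk_nhds hz'
  have hy : Tendsto (fun s : ℂ => (t₁, z' s)) U (𝓝 (t₁, z)) :=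
    tendsto_const_nhds.prodMk_nhds hz'
  have h4 : (fun s : ℂ => G (t₁ + s • x, z' s) - G (t₁, z' s) -
      fderiv ℂ G (t₁, z) ((t₁ + s • x, z' s) - (t₁, z' s))) =o[U]
      fun s : ℂ => ((t₁ + s • x, z' s) - (t₁, z' s) : Cm p × Cm d) :=
    hGs.isLittleO.comp_tendsto (hx.prodMk_nhds hy)
  have h5 : ∀ s : ℂ, ((t₁ + s • x, z' s) - (t₁, z' s) : Cm p × Cm d) =
      s • (x, (0 : Cm d)) := by
    intro s
    ext <;> simp
  have h6 : (fun s : ℂ => ((t₁ + s • x, z' s) - (t₁, z' s) : Cm p × Cm d))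
      =O[U] fun s : ℂ => s := by
    refine Asymptotics.IsBigO.of_bound ‖(x, (0 : Cm d))‖ (Eventually.of_forall fun s => ?_)
    rw [h5, norm_smul, mul_comm]
  have h7 := (h4.trans_isBigO h6).tendsto_inv_smul_nhds_zero
  have h8 := h7.add_const (fderiv ℂ G (t₁, z) (x, 0))
  rw [zero_add] at h8
  refine h8.congr' ?_
  filter_upwards [hne] with s hs
  rw [h5, map_smul, smul_sub, smul_smul, inv_mul_cancel₀ hs, one_smul, sub_add_cancel]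

/-- 2-forms, for all the parameters in `T'`. -/
structure DatM (𝓕 : Fam p d E Γ) (T' : Set (Cm p)) (u : Cm p → Fin 𝓕.N → Cm d → V2 d) : Prop where
  sub : T' ⊆ 𝓕.T
  isOpen : IsOpen T'
  fm : ∀ t ∈ T', ∀ i, Fm (u t i) (ball 0 3)
  rel : ∀ t ∈ T', ∀ i j, ∀ z ∈ ball (0 : Cm d) 3, ∀ w ∈ ball (0 : Cm d) 3,
    𝓕.σ i t z = 𝓕.σ j t w → u t i z = pq (jm (𝓕.σ i t) (𝓕.σ j t) z) (u t j w)

section
variable {𝓕 : Fam p d E Γ} {T' : Set (Cm p)} {u : Cm p → Fin 𝓕.N → Cm d → V2 d}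

/-- The sequence for the continuity. -/
theorem DatM.seq (D : DatM 𝓕 T' u) {t₁ : Cm p} (ht₁ : t₁ ∈ T') :
    SeqM 𝓕 (𝓝 t₁) id t₁ u (fun _ _ _ _ => 0) where
  lim := tendsto_id
  fm := by
    filter_upwards [D.isOpen.mem_nhds ht₁] with t ht using D.fm t ht
  rel := by
    intro i j z hz w hw hγ U hU z' w' hz' hw' hr
    have h1 : ∀ᶠ t in (U : Filter (Cm p)), t ∈ T' := hU (D.isOpen.mem_nhds ht₁)
    have h2 : ∀ᶠ t in (U : Filter (Cm p)), z' t ∈ ball (0 : Cm d) 3 :=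
      hz'.eventually (isOpen_ball.mem_nhds hz)
    have h3 : ∀ᶠ t in (U : Filter (Cm p)), w' t ∈ ball (0 : Cm d) 3 :=
      hw'.eventually (isOpen_ball.mem_nhds hw)
    refine tendsto_const_nhds.congr' ?_
    filter_upwards [h1, h2, h3, hr] with t k1 k2 k3 k4
    have k5 := D.rel t k1 i j _ k2 _ k3 k4
    simp only [id] at k4 ⊢
    rw [k5, sub_self]

/-- The difference quotients. -/
theorem DatM.exists_seq (D : DatM 𝓕 T' u) {t₁ : Cm p} (ht₁ : t₁ ∈ T') (x : Cm p) :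
    ∃ B : Fin 𝓕.N → Fin 𝓕.N → Cm d → Cm d → V2 d,
      SeqM 𝓕 (𝓝[≠] (0 : ℂ)) (fun s => t₁ + s • x) t₁
        (fun s i z => s⁻¹ • (u (t₁ + s • x) i z - u t₁ i z)) B := by
  have hlim0 : Tendsto (fun s : ℂ => t₁ + s • x) (𝓝 0) (𝓝 t₁) := by
    have : Continuous fun s : ℂ => t₁ + s • x := by fun_prop
    simpa using this.tendsto 0
  have hlim : Tendsto (fun s : ℂ => t₁ + s • x) (𝓝[≠] (0 : ℂ)) (𝓝 t₁) :=
    hlim0.mono_left nhdsWithin_le_nhds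
  have hT : ∀ᶠ s : ℂ in 𝓝[≠] (0 : ℂ), t₁ + s • x ∈ T' :=
    hlim.eventually (D.isOpen.mem_nhds ht₁)
  have hex : ∀ (i j : Fin 𝓕.N) (z w : Cm d), ∃ β : V2 d, z ∈ ball (0 : Cm d) 3 →
      w ∈ ball (0 : Cm d) 3 → 𝓕.σ i t₁ z = 𝓕.σ j t₁ w →
      ∀ U : Ultrafilter ℂ, (U : Filter ℂ) ≤ 𝓝[≠] (0 : ℂ) →
      ∀ z' w' : ℂ → Cm d, Tendsto z' U (𝓝 z) → Tendsto w' U (𝓝 w) →
        (∀ᶠ s in (U : Filter ℂ),
          𝓕.σ i (t₁ + s • x) (z' s) = 𝓕.σ j (t₁ + s • x) (w' s)) →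
          Tendsto (fun s => s⁻¹ • (u (t₁ + s • x) i (z' s) - u t₁ i (z' s)) -
            pq (jm (𝓕.σ i (t₁ + s • x)) (𝓕.σ j (t₁ + s • x)) (z' s))
              (s⁻¹ • (u (t₁ + s • x) j (w' s) - u t₁ j (w' s)))) U (𝓝 β) := by
    intro i j z w
    by_cases hz : z ∈ ball (0 : Cm d) 3
    swap
    · exact ⟨0, fun h => absurd h hz⟩
    by_cases hw : w ∈ ball (0 : Cm d) 3
    swap
    · exact ⟨0, fun _ h => absurd h hw⟩
    by_cases hγ : 𝓕.σ i t₁ z = 𝓕.σ j t₁ w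
    swap
    · exact ⟨0, fun _ _ h => absurd h hγ⟩
    obtain ⟨hθ, -, hθw, hθr⟩ := tm_fam 𝓕 (D.sub ht₁) hz hw hγ
    have hJ := jm_fam 𝓕 (D.sub ht₁) hz hw hγ
    set θ : Cm p × Cm d → Cm d := fun q => tm (𝓕.σ i q.1) (𝓕.σ j q.1) q.2 with hθdef
    set J : Cm p × Cm d → Matrix (Fin d) (Fin d) ℂ :=
      fun q => jm (𝓕.σ i q.1) (𝓕.σ j q.1) q.2 with hJdef
    have hua : AnalyticAt ℂ (u t₁ j) w :=
      MF.analyticAt_of_differentiableOn isOpen_ball (D.fm t₁ ht₁ j).hol hw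
    have hG : AnalyticAt ℂ (fun y : Cm p × Cm d => pq (J y) (u t₁ j (θ y))) (t₁, z) := by
      have hua' : AnalyticAt ℂ (u t₁ j) (θ (t₁, z)) := by
        show AnalyticAt ℂ (u t₁ j) (tm (𝓕.σ i t₁) (𝓕.σ j t₁) z)
        rwa [hθw]
      exact pq_an hJ (hua'.comp hθ)
    set G : Cm p × Cm d → V2 d := fun y => pq (J y) (u t₁ j (θ y)) with hGdef
    refine ⟨fderiv ℂ G (t₁, z) (x, 0), fun _ _ _ U hU z' w' hz' hw' hr => ?_⟩
    have hU0 : (U : Filter ℂ) ≤ 𝓝 0 := hU.trans nhdsWithin_le_nhds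
    have hx : Tendsto (fun s : ℂ => (t₁ + s • x, z' s)) U (𝓝 (t₁, z)) :=
      (hlim0.mono_left hU0).prodMk_nhds hz'
    have hy : Tendsto (fun s : ℂ => (t₁, z' s)) U (𝓝 (t₁, z)) :=
      tendsto_const_nhds.prodMk_nhds hz'
    have hne : ∀ᶠ s : ℂ in (U : Filter ℂ), s ≠ 0 := hU self_mem_nhdsWithin
    have h2 : ∀ᶠ t in (U : Filter ℂ), z' t ∈ ball (0 : Cm d) 3 :=
      hz'.eventually (isOpen_ball.mem_nhds hz)
    have h3 : ∀ᶠ t in (U : Filter ℂ), w' t ∈ ball (0 : Cm d) 3 :=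
      hw'.eventually (isOpen_ball.mem_nhds hw)
    -- the strict derivative
    have key : Tendsto (fun s : ℂ => s⁻¹ • (G (t₁ + s • x, z' s) - G (t₁, z' s))) U
        (𝓝 (fderiv ℂ G (t₁, z) (x, 0))) := quot_lim hG x hU0 hne hz'
    refine key.congr' ?_
    filter_upwards [hU hT, h2, h3, hr, hx.eventually hθr, hy.eventually hθr] with s k1 k2 k3 k4 k5
      k6
    have k7 : tm (𝓕.σ i (t₁ + s • x)) (𝓕.σ j (t₁ + s • x)) (z' s) = w' s :=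
      tm_eq (𝓕.at _ (D.sub k1)) k3 k4
    have k8 := D.rel _ k1 i j _ k2 _ k3 k4
    have k9 := D.rel t₁ ht₁ i j _ k2 _ k6.2.2.1 k6.2.2.2
    simp only [hGdef, hθdef, hJdef]
    rw [k7, k8, ← k9, pq_smul, pq_sub, ← smul_sub]
    congr 1
    abel
  choose B hB using hex
  refine ⟨B, hlim, ?_, ?_⟩
  · filter_upwards [hT] with s hs i
    exact (((D.fm _ hs i).sub isOpen_ball (D.fm t₁ ht₁ i))).smul _
  · intro i j z hz w hw hγ U hU z' w' hz' hw' hr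
    exact hB i j z w hz hw hγ U hU z' w' hz' hw' hr

end

section
variable [Subsingleton Γ] [T2Space E] [ContinuousConstSMul Γ E]
variable {𝓕 : Fam p d E Γ} {T' : Set (Cm p)} {u : Cm p → Fin 𝓕.N → Cm d → V2 d}

theorem DatM.continuousAt (D : DatM 𝓕 T' u) {i₀ : Fin 𝓕.N} {z₀ : Cm d} {a₀ b₀ : Fin d}
    (hz₀ : z₀ ∈ ball (0 : Cm d) 2) (hG : ∀ t (ht : t ∈ T'), Det2 (𝓕.at t (D.sub ht)) i₀ z₀ a₀ b₀)
    {c₀ : ℂ} (h0 : ∀ t ∈ T', u t i₀ z₀ a₀ b₀ = c₀) {t₁ : Cm p} (ht₁ : t₁ ∈ T') :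
    ∀ i, ∀ z ∈ ball (0 : Cm d) 2,
      ContinuousAt (fun x : Cm p × Cm d => u x.1 i x.2) (t₁, z) := by
  have hT : ∀ᶠ t in 𝓝 t₁, t ∈ T' := D.isOpen.mem_nhds ht₁
  obtain ⟨v, h2⟩ := convM 𝓕 (D.sub ht₁) (D.seq ht₁) hz₀ (hG t₁ ht₁)
    (c₀ := c₀) (tendsto_const_nhds.congr' (hT.mono fun t ht => (h0 t ht).symm))
  intro i z hz
  have h4 := h2 i z hz
  rw [← nhds_prod_eq] at h4
  exact continuousAt_of_tendsto_nhds h4

theorem DatM.differentiableAt (D : DatM 𝓕 T' u) {i₀ : Fin 𝓕.N} {z₀ : Cm d} {a₀ b₀ : Fin d}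
    (hz₀ : z₀ ∈ ball (0 : Cm d) 2) (hG : ∀ t (ht : t ∈ T'), Det2 (𝓕.at t (D.sub ht)) i₀ z₀ a₀ b₀)
    {c₀ : ℂ} (h0 : ∀ t ∈ T', u t i₀ z₀ a₀ b₀ = c₀) {t₁ : Cm p} (ht₁ : t₁ ∈ T') (x : Cm p) :
    ∀ i, ∀ z ∈ ball (0 : Cm d) 2,
      DifferentiableAt ℂ (fun s : ℂ => u (t₁ + s • x) i z) 0 := by
  obtain ⟨B, hB⟩ := D.exists_seq ht₁ x
  have hT : ∀ᶠ s : ℂ in 𝓝[≠] (0 : ℂ), t₁ + s • x ∈ T' :=
    hB.lim.eventually (D.isOpen.mem_nhds ht₁)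
  obtain ⟨v, h2⟩ := convM 𝓕 (D.sub ht₁) hB hz₀ (hG t₁ ht₁)
    (c₀ := 0) (tendsto_const_nhds.congr' (hT.mono fun s hs => by
      show (0 : ℂ) = s⁻¹ * (u (t₁ + s • x) i₀ z₀ a₀ b₀ - u t₁ i₀ z₀ a₀ b₀)
      rw [h0 _ hs, h0 t₁ ht₁]; ring))
  intro i z hz
  have h4 : Tendsto (fun s : ℂ => s⁻¹ • (u (t₁ + s • x) i z - u t₁ i z)) (𝓝[≠] 0)
      (𝓝 (v i z)) :=
    lim_prod (f := fun s z => s⁻¹ • (u (t₁ + s • x) i z - u t₁ i z)) (h2 i z hz)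
      tendsto_const_nhds
  have h5 : HasDerivAt (fun s : ℂ => u (t₁ + s • x) i z) (v i z) 0 := by
    rw [hasDerivAt_iff_tendsto_slope_zero]
    simpa using h4
  exact h5.differentiableAt

/-- **Analyticity in the parameter.** -/
theorem DatM.analytic (D : DatM 𝓕 T' u) {i₀ : Fin 𝓕.N} {z₀ : Cm d} {a₀ b₀ : Fin d}
    (hz₀ : z₀ ∈ ball (0 : Cm d) 2) (hG : ∀ t (ht : t ∈ T'), Det2 (𝓕.at t (D.sub ht)) i₀ z₀ a₀ b₀)
    {c₀ : ℂ} (h0 : ∀ t ∈ T', u t i₀ z₀ a₀ b₀ = c₀) :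
    ∀ i, ∀ t ∈ T', ∀ z ∈ ball (0 : Cm d) 3,
      AnalyticAt ℂ (fun x : Cm p × Cm d => u x.1 i x.2) (t, z) := by
  have hcont := fun t (ht : t ∈ T') => D.continuousAt hz₀ hG h0 ht
  have hdiff := fun t (ht : t ∈ T') => D.differentiableAt hz₀ hG h0 ht
  have h2 : ∀ i, ∀ t ∈ T', ∀ z ∈ ball (0 : Cm d) 2,
      AnalyticAt ℂ (fun x : Cm p × Cm d => u x.1 i x.2) (t, z) := by
    intro i t ht z hz
    rw [an_iff]
    intro a b
    have h3 : DifferentiableOn ℂ (fun x : Cm p × Cm d => u x.1 i x.2 a b)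
        (T' ×ˢ ball (0 : Cm d) 2) := by
      refine osgood_dir ((Pi.basisFun ℂ (Fin p)).prod (Pi.basisFun ℂ (Fin d)))
        (D.isOpen.prod isOpen_ball) ?_ ?_
      · rintro ⟨t, z⟩ ⟨ht, hz⟩
        exact (continuousAt_pi.1 ((continuousAt_pi.1 (hcont t ht i z hz)) a)) b
      · rintro ⟨t, z⟩ ⟨ht, hz⟩ (k | k)
        · have h4 := diffAt_iff.1 ((hdiff t ht (Pi.basisFun ℂ (Fin p) k)) i z hz) a b
          simpa using h4
        · have h4 : DifferentiableAt ℂ (fun z => u t i z a b) z :=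
            (diff_iff.1 (D.fm t ht i).hol a b).differentiableAt
              (isOpen_ball.mem_nhds (ball_subset_ball (by norm_num) hz))
          have h5 : DifferentiableAt ℂ (fun s : ℂ => z + s • (Pi.single k 1 : Cm d)) 0 := by
            fun_prop
          have h6 : DifferentiableAt ℂ (fun z => u t i z a b)
              ((fun s : ℂ => z + s • (Pi.single k 1 : Cm d)) 0) := by
            simpa using h4
          have h7 := DifferentiableAt.comp (0 : ℂ) h6 h5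
          simpa [Function.comp_def] using h7
    exact MF.analyticAt_of_differentiableOn (D.isOpen.prod isOpen_ball) h3 ⟨ht, hz⟩
  intro i t ht z hz
  obtain ⟨j, w, hw, he⟩ := cover1 (𝓕.at t (D.sub ht)) (𝓕.σ i t z)
  have hw3 : w ∈ ball (0 : Cm d) 3 := by rw [mem_ball_zero_iff]; linarith
  have hw2 : w ∈ ball (0 : Cm d) 2 := by rw [mem_ball_zero_iff]; linarith
  obtain ⟨k1, -, k2, k3⟩ := tm_fam 𝓕 (D.sub ht) (i := i) (j := j) hz hw3 he.symm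
  have k1' := jm_fam 𝓕 (D.sub ht) (i := i) (j := j) hz hw3 he.symm
  have hT : ∀ᶠ x : Cm p × Cm d in 𝓝 (t, z), x.1 ∈ T' :=
    (continuous_fst.tendsto (t, z)).eventually (D.isOpen.mem_nhds ht)
  have h3 : (fun x : Cm p × Cm d => u x.1 i x.2) =ᶠ[𝓝 (t, z)]
      fun x => pq (jm (𝓕.σ i x.1) (𝓕.σ j x.1) x.2)
        (u x.1 j (tm (𝓕.σ i x.1) (𝓕.σ j x.1) x.2)) := by
    filter_upwards [hT, k3] with x k4 k5
    exact D.rel x.1 k4 i j _ k5.2.1 _ k5.2.2.1 k5.2.2.2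
  refine AnalyticAt.congr ?_ h3.symm
  have h4 : AnalyticAt ℂ (fun x : Cm p × Cm d => (x.1, tm (𝓕.σ i x.1) (𝓕.σ j x.1) x.2)) (t, z) :=
    analyticAt_fst.prod k1
  have h5 : AnalyticAt ℂ (fun x : Cm p × Cm d => u x.1 j (tm (𝓕.σ i x.1) (𝓕.σ j x.1) x.2))
      (t, z) := by
    have h6 : AnalyticAt ℂ (fun x : Cm p × Cm d => u x.1 j x.2)
        (t, tm (𝓕.σ i t) (𝓕.σ j t) z) := by
      rw [k2]
      exact h2 j t ht w hw2
    exact AnalyticAt.comp (g := fun x : Cm p × Cm d => u x.1 j x.2)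
      (f := fun x : Cm p × Cm d => (x.1, tm (𝓕.σ i x.1) (𝓕.σ j x.1) x.2)) h6 h4
  exact pq_an k1' h5

theorem ne_entry {s : V2 d} (h : s ≠ 0) : ∃ a b, s a b ≠ 0 := by
  by_contra hcon
  push Not at hcon
  exact h (funext fun a => funext fun b => hcon a b)

/-- If the form number `t₁` is not zero at the point `z₀` of the sheet `i₀`, the same is true for the
neighbouring parameters. -/
theorem ne_open2 (𝓕 : Fam p d E Γ) {i₀ : Fin 𝓕.N} {z₀ : Cm d} {a₀ b₀ : Fin d}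
    (hz₀ : z₀ ∈ ball (0 : Cm d) 2)
    (h1 : ∀ t (ht : t ∈ 𝓕.T), ∃ s, Hol2 (𝓕.at t ht) s ∧
      ∃ i, ∃ z ∈ ball (0 : Cm d) 3, s i z ≠ 0)
    {t₁ : Cm p} (ht₁ : t₁ ∈ 𝓕.T) (hG : Det2 (𝓕.at t₁ ht₁) i₀ z₀ a₀ b₀) :
    ∀ᶠ t in 𝓝 t₁, ∃ (ht : t ∈ 𝓕.T) (s : Fin 𝓕.N → Cm d → Matrix (Fin d) (Fin d) ℂ),
      Hol2 (𝓕.at t ht) s ∧ s i₀ z₀ a₀ b₀ ≠ 0 := by
  by_contra hcon
  have hT : ∀ᶠ t in 𝓝 t₁, t ∈ 𝓕.T := 𝓕.isOpen.mem_nhds ht₁
  set A : Set (Cm p) := {t | ∃ ht : t ∈ 𝓕.T, ∀ s, Hol2 (𝓕.at t ht) s → s i₀ z₀ a₀ b₀ = 0} with hA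
  have hfr : ∃ᶠ t in 𝓝 t₁, t ∈ A := by
    rw [Filter.Frequently]
    intro h
    refine hcon ?_
    filter_upwards [hT, h] with t k1 k2
    refine ⟨k1, ?_⟩
    by_contra k3
    push Not at k3
    exact k2 ⟨k1, k3⟩
  -- `t₁` is not in `A`
  have htA : t₁ ∉ A := by
    rintro ⟨ht, h⟩
    obtain ⟨s, hs, i, z, hz, hne⟩ := h1 t₁ ht₁
    exact hne (hG s hs (h s hs) i z hz)
  set l : Filter (Cm p) := 𝓝 t₁ ⊓ 𝓟 A with hl
  have hlne : l.NeBot := frequently_mem_iff_neBot.1 hfr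
  have hlA : ∀ᶠ t in l, t ∈ A := mem_inf_of_right (mem_principal_self A)
  -- the forms, scaled to be large
  have hex : ∀ t, ∃ u : Fin 𝓕.N → Cm d → V2 d, ∀ ht : t ∈ 𝓕.T, t ≠ t₁ →
      Hol2 (𝓕.at t ht) u ∧ ∃ i, ∃ z ∈ closedBall (0 : Cm d) 2, ‖u i z‖ = ‖t - t₁‖⁻¹ := by
    intro t
    by_cases ht : t ∈ 𝓕.T
    swap
    · exact ⟨fun _ _ => 0, fun h => absurd h ht⟩
    obtain ⟨s, hs, i, z, hz, hne⟩ := h1 t ht
    obtain ⟨j, w, hw, he⟩ := cover1 (𝓕.at t ht) (𝓕.σ i t z)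
    have hw3 : w ∈ ball (0 : Cm d) 3 := Sh.mem3 hw
    set S' : Fin 𝓕.N → Cm d → V2 d := s with hS'
    have h2 : S' j w ≠ 0 := by
      intro h0
      have h3 := Hol2.rel hs i j z hz w hw3 he.symm
      have h4 : S' i z = pq (jm (𝓕.σ i t) (𝓕.σ j t) z) (S' j w) := h3
      rw [h0, pq_zero] at h4
      exact hne h4
    have h5 : 0 < ‖S' j w‖ := norm_pos_iff.2 h2
    refine ⟨fun k x => (((‖t - t₁‖⁻¹ * ‖S' j w‖⁻¹ : ℝ)) : ℂ) • S' k x, fun _ _ =>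
      ⟨hol2_of (fun k => (Hol2.fm hs k).smul _) fun k k' x hx x' hx' h => ?_,
      j, w, ?_, ?_⟩⟩
    · have h3 : S' k x = pq (jm ((𝓕.at t ht).σ k) ((𝓕.at t ht).σ k') x) (S' k' x') :=
        Hol2.rel hs k k' x hx x' hx' h
      rw [pq_smul, ← h3]
    · rw [mem_closedBall_zero_iff]
      linarith
    · beta_reduce
      rw [norm_smul, Complex.norm_real, Real.norm_of_nonneg (by positivity), mul_assoc,
        inv_mul_cancel₀ h5.ne', mul_one]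
  choose u hu using hex
  set U : Ultrafilter (Cm p) := Ultrafilter.of l with hUdef
  have hU : (U : Filter (Cm p)) ≤ l := Ultrafilter.of_le l
  have hUt : (U : Filter (Cm p)) ≤ 𝓝 t₁ := hU.trans inf_le_left
  have hUA : ∀ᶠ t in (U : Filter (Cm p)), t ∈ A := hU hlA
  have hgood : ∀ᶠ t in (U : Filter (Cm p)), ∃ ht : t ∈ 𝓕.T, Hol2 (𝓕.at t ht) (u t) ∧
      (∃ i, ∃ z ∈ closedBall (0 : Cm d) 2, ‖u t i z‖ = ‖t - t₁‖⁻¹) ∧ u t i₀ z₀ a₀ b₀ = 0 := by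
    filter_upwards [hUA] with t ht
    obtain ⟨k1, k2⟩ := ht
    have hne : t ≠ t₁ := fun h => htA (h ▸ ⟨k1, k2⟩)
    exact ⟨k1, (hu t k1 hne).1, (hu t k1 hne).2, k2 _ (hu t k1 hne).1⟩
  have Hs : SeqM 𝓕 (U : Filter (Cm p)) id t₁ u (fun _ _ _ _ => 0) := by
    refine ⟨hUt, ?_, ?_⟩
    · filter_upwards [hgood] with t ht using Hol2.fm ht.2.1
    · intro i j z hz w hw hγ V hV z' w' hz' hw' hr
      have h2 : ∀ᶠ t in (V : Filter (Cm p)), z' t ∈ ball (0 : Cm d) 3 :=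
        hz'.eventually (isOpen_ball.mem_nhds hz)
      have h3 : ∀ᶠ t in (V : Filter (Cm p)), w' t ∈ ball (0 : Cm d) 3 :=
        hw'.eventually (isOpen_ball.mem_nhds hw)
      refine tendsto_const_nhds.congr' ?_
      filter_upwards [hV hgood, h2, h3, hr] with t k1 k2 k3 k4
      simp only [id] at k4 ⊢
      have k6 : u t i (z' t) = pq (jm (𝓕.σ i t) (𝓕.σ j t) (z' t)) (u t j (w' t)) :=
        Hol2.rel k1.2.1 i j _ k2 _ k3 k4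
      rw [k6, sub_self]
  obtain ⟨C, hC⟩ := bddM 𝓕 U ht₁ Hs hz₀ hG (C₀ := 0) (by
    filter_upwards [hgood] with t ht
    rw [ht.2.2.2, norm_zero])
  have hbig : ∀ᶠ t in (U : Filter (Cm p)), ‖t - t₁‖ * (|C| + 1) < 1 := by
    have h4 : Tendsto (fun t : Cm p => ‖t - t₁‖ * (|C| + 1)) (𝓝 t₁) (𝓝 (‖t₁ - t₁‖ * (|C| + 1))) :=
      (by fun_prop : Continuous fun t : Cm p => ‖t - t₁‖ * (|C| + 1)).tendsto t₁
    rw [sub_self, norm_zero, zero_mul] at h4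
    exact hUt (h4.eventually (gt_mem_nhds one_pos))
  obtain ⟨t, ⟨h4, h5⟩, h6, h7⟩ := ((hC.and hbig).and (hgood.and hUA)).exists
  obtain ⟨-, -, ⟨i, z, hz, h8⟩, -⟩ := h6
  have h9 := h4 i z hz
  rw [h8] at h9
  have h10 : 0 < ‖t - t₁‖ := norm_pos_iff.2 (sub_ne_zero.2 fun h => htA (h ▸ h7))
  have h11 : 1 ≤ C * ‖t - t₁‖ := by
    rw [← div_le_iff₀ h10, one_div]
    exact h9
  have h12 : C ≤ |C| := le_abs_self C
  nlinarith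

/-- **Block D2-HK** (Grauert, `h⁰ = 1`). -/
theorem grauert2_core (𝓕 : Fam p d E Γ)
    (h1 : ∀ t (ht : t ∈ 𝓕.T), ∃ s, Gen2 (𝓕.at t ht) s) {t₀ : Cm p}
    (ht₀ : t₀ ∈ 𝓕.T) : ∃ (T' : Set (Cm p))
      (s : Fin 𝓕.N → Cm p × Cm d → Matrix (Fin d) (Fin d) ℂ),
      T' ⊆ 𝓕.T ∧ IsOpen T' ∧ t₀ ∈ T' ∧ Fam2 𝓕 T' s := by
  -- the point
  obtain ⟨s₀, hs₀, ⟨i, z, hz, hne⟩, -⟩ := h1 t₀ ht₀
  obtain ⟨i₀, z₀, hz₀1, he⟩ := cover1 (𝓕.at t₀ ht₀) (𝓕.σ i t₀ z)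
  have hz₀3 : z₀ ∈ ball (0 : Cm d) 3 := Sh.mem3 hz₀1
  have hz₀ : z₀ ∈ ball (0 : Cm d) 2 := by rw [mem_ball_zero_iff]; linarith
  have h2 : ∃ a b, s₀ i₀ z₀ a b ≠ 0 := by
    refine ne_entry (s := s₀ i₀ z₀) fun h0 => hne ?_
    have h3 := Hol2.rel hs₀ i i₀ z hz z₀ hz₀3 he.symm
    refine h3.trans ?_
    rw [h0]
    exact pq_zero _
  obtain ⟨a₀, b₀, h2⟩ := h2
  set T' : Set (Cm p) := {t | ∃ (ht : t ∈ 𝓕.T) (s : Fin 𝓕.N → Cm d → Matrix (Fin d) (Fin d) ℂ),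
    Hol2 (𝓕.at t ht) s ∧ s i₀ z₀ a₀ b₀ ≠ 0} with hT'def
  have hT' : T' ⊆ 𝓕.T := fun t ht => ht.1
  have hdet : ∀ t (ht : t ∈ T'), Det2 (𝓕.at t (hT' ht)) i₀ z₀ a₀ b₀ := by
    rintro t ht s hs hs0 i z hz
    obtain ⟨g, hg, -, huniq⟩ := h1 t (hT' ht)
    obtain ⟨ht', s', hs', hne'⟩ := ht
    obtain ⟨c, hc⟩ := huniq s hs
    obtain ⟨c', hc'⟩ := huniq s' hs'
    have h4 : g i₀ z₀ a₀ b₀ ≠ 0 := by
      intro h5
      refine hne' ?_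
      rw [hc' i₀ z₀ hz₀3, Matrix.smul_apply, h5, smul_zero]
    have h5 : c = 0 := by
      have h6 := hc i₀ z₀ hz₀3
      have h7 : s i₀ z₀ a₀ b₀ = c * g i₀ z₀ a₀ b₀ := by rw [h6]; rfl
      rw [hs0] at h7
      exact (mul_eq_zero.1 h7.symm).resolve_right h4
    rw [hc i z hz, h5, zero_smul]
  have hopen : IsOpen T' := by
    rw [isOpen_iff_mem_nhds]
    intro t ht
    exact ne_open2 𝓕 hz₀ (fun t ht => by
      obtain ⟨s, hs, hne, -⟩ := h1 t ht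
      exact ⟨s, hs, hne⟩) (hT' ht) (hdet t ht)
  have h₀ : t₀ ∈ T' := ⟨ht₀, s₀, hs₀, h2⟩
  have hex : ∀ t, ∃ u : Fin 𝓕.N → Cm d → V2 d, ∀ ht : t ∈ T',
      Hol2 (𝓕.at t (hT' ht)) u ∧ u i₀ z₀ a₀ b₀ = 1 := by
    intro t
    by_cases ht : t ∈ T'
    swap
    · exact ⟨fun _ _ => 0, fun h => absurd h ht⟩
    have ht' := ht
    obtain ⟨_, s, hs, hne⟩ := ht'
    set S' : Fin 𝓕.N → Cm d → V2 d := s with hS'
    refine ⟨fun k x => (S' i₀ z₀ a₀ b₀)⁻¹ • S' k x, fun _ =>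
      ⟨hol2_of (fun k => (Hol2.fm hs k).smul _) fun k k' x hx x' hx' h => ?_, ?_⟩⟩
    · have h3 : S' k x = pq (jm ((𝓕.at t (hT' ht)).σ k) ((𝓕.at t (hT' ht)).σ k') x) (S' k' x') :=
        Hol2.rel hs k k' x hx x' hx' h
      rw [pq_smul, ← h3]
    · show (S' i₀ z₀ a₀ b₀)⁻¹ * S' i₀ z₀ a₀ b₀ = 1
      exact inv_mul_cancel₀ hne
  choose u hu using hex
  have hdat : DatM 𝓕 T' u := by
    refine ⟨hT', hopen, fun t ht => Hol2.fm (hu t ht).1, fun t ht i j z hz w hw h => ?_⟩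
    exact Hol2.rel (hu t ht).1 i j z hz w hw h
  have hana := hdat.analytic hz₀ hdet (c₀ := 1) (fun t ht => (hu t ht).2)
  refine ⟨T', fun i q => u q.1 i q.2, hT', hopen, h₀, fun i t ht z hz j k => ?_,
    fun t ht htT => ?_⟩
  · exact an_iff.1 (hana i t ht z hz) j k
  · obtain ⟨g, hg, hgne, huniq⟩ := h1 t ht
    obtain ⟨c, hc⟩ := huniq _ (hu t htT).1
    have h3 : u t i₀ z₀ a₀ b₀ = 1 := (hu t htT).2
    have hc0 : c ≠ 0 := by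
      intro h4
      have h5 : u t i₀ z₀ = c • g i₀ z₀ := hc i₀ z₀ hz₀3
      have h6 : u t i₀ z₀ a₀ b₀ = c * g i₀ z₀ a₀ b₀ := by rw [h5]; rfl
      rw [h3, h4, zero_mul] at h6
      exact one_ne_zero h6
    refine ⟨(hu t htT).1, ⟨i₀, z₀, hz₀3, fun h4 => ?_⟩, fun s' hs' => ?_⟩
    · have h5 : u t i₀ z₀ = 0 := h4
      rw [h5] at h3
      exact zero_ne_one h3
    · obtain ⟨c', hc'⟩ := huniq s' hs'
      refine ⟨c' * c⁻¹, fun i z hz => ?_⟩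
      have h5 : (u t i z : Matrix (Fin d) (Fin d) ℂ) = c • g i z := hc i z hz
      rw [hc' i z hz]
      have h6 : (c' * c⁻¹) • (c • g i z) = c' • g i z := by
        rw [smul_smul, mul_assoc, inv_mul_cancel₀ hc0, mul_one]
      rw [← h6, ← h5]

end

end Vale.Agent.P281.H594.HK
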