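import Vale.Agent.P281.H83.HK.Spec
import Vale.Agent.P281.H594.HK.Gr3

/-!
# P281, T-HK, block F1 (helper594)
-/

open Set Filter Metric
open scoped Topology

namespace Vale.Agent.P281.H594.HK

open Vale.Agent.P281.H64.TK Vale.Agent.P281.H64.TK.TS Vale.Agent.P281.H83.HK
open Vale.Agent.P272.K (Cm)

/-- **Block F1** (Grauert, `h⁰ = 1`). -/
theorem grauert2 : Grau2Stmt := by
  intro p d E Γ _ _ _ _ _ _ _ 𝓕 _ h1 t₀ ht₀
  exact grauert2_core 𝓕 h1 ht₀

end Vale.Agent.P281.H594.HK
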