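import Vale.Agent.P281.H83.HK.Spec
import Vale.Agent.P281.H594.HK.Per0

/-!
# P281, T-HK, block D3' (helper594): the period of one manifold
-/

open Set Filter Metric MeasureTheory Vale.Agent.P272.K Vale.Agent.P281.H713
open scoped Topology ContDiff ComplexConjugate ComplexOrder

noncomputable section

namespace Vale.Agent.P281.H594.HK

open Vale.Agent.P281.H64.TK Vale.Agent.P281.H64.TK.TS Vale.Agent.P281.H83.HK

section
variable {d : ℕ} {E Γ : Type} [TopologicalSpace E] [Group Γ] [MulAction Γ E] {S : Sheets d E Γ}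

theorem cj_eq (a : L2 d) : cj a = TS.C2 a := by
  ext u v
  rfl

theorem cl_cjs {n : ℕ} (M : Mark2 S n) {a : Fin S.N → Cm d → L2 d} (ha : Cl2 S a) :
    M.cl (cjs a) = star (M.cl a) := by
  have h1 : cjs a = fun i z => TS.C2 (a i z) := by
    funext i z
    exact cj_eq _
  rw [h1, TS.cl_conj M ha]

theorem kc_eq [Subsingleton Γ] {n : ℕ} (M : Mark2 S n)
    {w : Fin S.N → Cm d → Matrix (Fin d) (Fin d) ℂ} (h : Cl2 S (kw w)) (hr : Real2 S (kw w)) :
    (fun k => ((kc M w k : ℝ) : ℂ)) = M.cl (kw w) := by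
  have h2 : M.cl (fun i z => TS.C2 (kw w i z)) = M.cl (kw w) :=
    TS.cl_congr M (TS.cl2_conj h) h fun i z hz => by
      ext u v
      exact Complex.conj_eq_iff_im.2 (hr i z hz u v)
  rw [TS.cl_conj M h] at h2
  funext k
  have h3 : conj (M.cl (kw w) k) = M.cl (kw w) k := congrFun h2 k
  exact Complex.conj_eq_iff_re.1 h3

end

/-- **Block D3'.** -/
theorem per2 (hH : HIStmt) (hF : FormsStmt) (hP : PosStmt) : Per2Stmt := by
  intro d E Γ _ _ _ _ _ _ _ _ S w s n M hd hw hs
  have hd1 : 1 < d := by omega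
  have hd0 : 0 < d := by omega
  obtain ⟨f1, f2, f3⟩ := hF d E Γ S hd0
  have hcs := f1 s hs.form
  obtain ⟨hcw, hrw⟩ := f2 w hw
  have hcc := f3 _ hcs
  obtain ⟨p0, p1⟩ := hP d E Γ S w hd hw
  obtain ⟨p2, p3, p4⟩ := p1 s s hs.form hs.form
  have hpos := p4 hs.ne
  have hkc := kc_eq M hcw hrw
  -- the square of the form
  have hpp : bil (Bc M (kw w)) (M.cl (ts s)) (star (M.cl (ts s))) =
      bW S (ts s) (cjs (ts s)) (kw w) := by
    rw [← cl_cjs M hcs, bil_cl hd1 M hcs hcc hcw hrw]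
  refine ⟨⟨?_, ?_, ?_, ?_, Or.inr ?_, ?_⟩, by rw [hpp]⟩
  · ext k l
    show Bc M (kw w) l k = Bc M (kw w) k l
    simp only [Bc, Matrix.of_apply]
    rw [bW_comm hd1]
  · rw [bil_cl hd1 M hcs hcs hcw hrw]
    exact p2
  · rw [hkc, bil_cl hd1 M hcs hcw hcw hrw]
    exact p3
  · rw [hpp]
    exact hpos
  · rw [hkc, bil_cl hd1 M hcw hcw hcw hrw]
    exact p0
  · -- negative definite on the orthogonal
    intro x hx hxp hxw
    have hcx := cl2_sum (fun k => ((x k : ℝ) : ℂ)) M.closed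
    have hclx : M.cl (fun i z => ∑ k, ((x k : ℝ) : ℂ) • M.b k i z) = fun k => ((x k : ℝ) : ℂ) :=
      TS.cl_eq M hcx (TS.exact_congr TS.exact_zero fun i z _ => by
        ext u v
        simp only [sub_apply, sub_self, zero_apply])
    have hrx : Real2 S (fun i z => ∑ k, ((x k : ℝ) : ℂ) • M.b k i z) := by
      intro i z hz u v
      simp only [sum_apply, smul_apply, smul_eq_mul]
      rw [Complex.im_sum]
      refine Finset.sum_eq_zero fun k _ => ?_
      rw [Complex.mul_im, M.real k i z hz u v]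
      simp
    have h1 : bW S (fun i z => ∑ k, ((x k : ℝ) : ℂ) • M.b k i z) (kw w) (kw w) = 0 := by
      rw [← bil_cl hd1 M hcx hcw hcw hrw, hclx, ← hkc]
      exact hxw
    have h2 : ∀ s', Hol2 S s' →
        bW S (fun i z => ∑ k, ((x k : ℝ) : ℂ) • M.b k i z) (ts s') (kw w) = 0 := by
      intro s' hs'
      obtain ⟨c, hc⟩ := hs.unique s' hs'
      have h3 : ∀ i, ∀ z ∈ ball (0 : Cm d) 3, ts s' i z = c • ts s i z := by
        intro i z hz
        ext u v
        show tf (s' i z) u v = c * tf (s i z) u v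
        rw [H624.HK.tf_apply, H624.HK.tf_apply, hc i z hz, Finset.mul_sum]
        refine Finset.sum_congr rfl fun j _ => ?_
        rw [Finset.mul_sum]
        refine Finset.sum_congr rfl fun k _ => ?_
        rw [Matrix.smul_apply, smul_eq_mul]
        ring
      rw [bW_comm hd1, bW_congr (a' := fun i z => c • ts s i z) h3 (fun i z _ => rfl),
        bW_smul hd0, bW_comm hd1, ← bil_cl hd1 M hcx hcs hcw hrw, hclx, hxp, mul_zero]
    obtain ⟨h3, h4⟩ := hH d E Γ S w _ hd hw hcx hrx h1 h2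
    have h5 : bil (Bc M (kw w)) (fun i => (x i : ℂ)) (fun i => (x i : ℂ)) =
        bW S (fun i z => ∑ k, ((x k : ℝ) : ℂ) • M.b k i z)
          (fun i z => ∑ k, ((x k : ℝ) : ℂ) • M.b k i z) (kw w) := by
      rw [← bil_cl hd1 M hcx hcx hcw hrw, hclx]
    rw [h5]
    refine lt_of_le_of_ne h3 fun h6 => hx ?_
    have h7 := M.indep _ (h4 h6)
    funext k
    have h8 : ((x k : ℝ) : ℂ) = 0 := congrFun h7 k
    show x k = 0
    exact_mod_cast h8

end Vale.Agent.P281.H594.HK
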