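import Vale.Agent.P281.H83.HK.Defs
import Vale.Agent.P281.H594.TS.Gr2

/-!
# P281, T-HK, block D2-HK (helper594): 2-forms, their pull-backs and limits
-/

open Set Filter Metric
open scoped Topology

noncomputable section

namespace Vale.Agent.P281.H594.HK

open Vale.Agent.P281.H64.TK Vale.Agent.P281.H64.TK.TS Vale.Agent.P281.H603.K
open Vale.Agent.P281.H83.HK
open Vale.Agent.P281.H594.TS (tm tm_eq tm_of tm_nhds tm_fam jac_comp jac_id jac_congr cover1)
open Vale.Agent.P272.K (Cm)

section lin
variable {d : ℕ}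

/-- Values of 2-forms. -/
abbrev V2 (d : ℕ) : Type := Fin d → Fin d → ℂ

/-- The pull-back `Jᵀ s J`. -/
def pq (J : Matrix (Fin d) (Fin d) ℂ) (s : V2 d) : V2 d :=
  fun k l => ∑ a, ∑ b, J a k * s a b * J b l

theorem pq_eq (J : Matrix (Fin d) (Fin d) ℂ) (s : Matrix (Fin d) (Fin d) ℂ) :
    (pq J s : Matrix (Fin d) (Fin d) ℂ) = J.transpose * s * J := by
  ext k l
  simp only [pq, Matrix.mul_apply, Matrix.transpose_apply, Finset.sum_mul]
  exact Finset.sum_comm

theorem pq_one (s : V2 d) : pq 1 s = s := by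
  have h : ∀ s : Matrix (Fin d) (Fin d) ℂ, (pq 1 s : Matrix (Fin d) (Fin d) ℂ) = s := by
    intro s
    rw [pq_eq, Matrix.transpose_one, Matrix.one_mul, Matrix.mul_one]
  exact h s

theorem pq_pq (J K : Matrix (Fin d) (Fin d) ℂ) (s : V2 d) : pq J (pq K s) = pq (K * J) s := by
  have h : ∀ s : Matrix (Fin d) (Fin d) ℂ,
      (J.transpose * (K.transpose * s * K) * J : Matrix (Fin d) (Fin d) ℂ) =
        (K * J).transpose * s * (K * J) := by
    intro s
    rw [Matrix.transpose_mul]
    simp only [Matrix.mul_assoc]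
  have h1 := pq_eq J (pq K s)
  have h2 := pq_eq (K * J) s
  have h3 := pq_eq K s
  refine h1.trans (Eq.trans ?_ h2.symm)
  rw [h3]
  exact h s

theorem pq_sub (J : Matrix (Fin d) (Fin d) ℂ) (s s' : V2 d) :
    pq J (s - s') = pq J s - pq J s' := by
  funext k l
  simp only [pq, Pi.sub_apply, mul_sub, sub_mul, Finset.sum_sub_distrib]

theorem pq_smul (c : ℂ) (J : Matrix (Fin d) (Fin d) ℂ) (s : V2 d) :
    pq J (c • s) = c • pq J s := by
  funext k l
  simp only [pq, Pi.smul_apply, smul_eq_mul, Finset.mul_sum]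
  exact Finset.sum_congr rfl fun a _ => Finset.sum_congr rfl fun b _ => by ring

theorem pq_zero (J : Matrix (Fin d) (Fin d) ℂ) : pq J (0 : V2 d) = 0 := by
  funext k l
  simp [pq]

theorem pq_alt {J : Matrix (Fin d) (Fin d) ℂ} {s : V2 d} (h : ∀ a b, s a b = - s b a)
    (k l : Fin d) : pq J s k l = - pq J s l k := by
  simp only [pq]
  rw [Finset.sum_comm, ← Finset.sum_neg_distrib]
  refine Finset.sum_congr rfl fun a _ => ?_
  rw [← Finset.sum_neg_distrib]
  refine Finset.sum_congr rfl fun b _ => ?_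
  rw [h b a]
  ring

theorem pq_tendsto {ι : Type} {l : Filter ι} {J : ι → Matrix (Fin d) (Fin d) ℂ} {s : ι → V2 d}
    {J₀ : Matrix (Fin d) (Fin d) ℂ} {s₀ : V2 d}
    (hJ : ∀ a b, Tendsto (fun k => J k a b) l (𝓝 (J₀ a b))) (hs : Tendsto s l (𝓝 s₀)) :
    Tendsto (fun k => pq (J k) (s k)) l (𝓝 (pq J₀ s₀)) := by
  rw [tendsto_pi_nhds]
  intro k
  rw [tendsto_pi_nhds]
  intro k'
  have hs' : ∀ a b, Tendsto (fun k => s k a b) l (𝓝 (s₀ a b)) := fun a b =>
    (tendsto_pi_nhds.1 ((tendsto_pi_nhds.1 hs) a)) b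
  exact tendsto_finsetSum _ fun a _ => tendsto_finsetSum _ fun b _ =>
    ((hJ a k).mul (hs' a b)).mul (hJ b k')

theorem an_iff {X : Type} [NormedAddCommGroup X] [NormedSpace ℂ X] {f : X → V2 d} {x : X} :
    AnalyticAt ℂ f x ↔ ∀ a b, AnalyticAt ℂ (fun x => f x a b) x := by
  rw [analyticAt_pi_iff]
  exact forall_congr' fun a => analyticAt_pi_iff

theorem diff_iff {X : Type} [NormedAddCommGroup X] [NormedSpace ℂ X] {f : X → V2 d} {s : Set X} :
    DifferentiableOn ℂ f s ↔ ∀ a b, DifferentiableOn ℂ (fun x => f x a b) s := by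
  rw [differentiableOn_pi]
  exact forall_congr' fun a => differentiableOn_pi

theorem diffAt_iff {X : Type} [NormedAddCommGroup X] [NormedSpace ℂ X] {f : X → V2 d} {x : X} :
    DifferentiableAt ℂ f x ↔ ∀ a b, DifferentiableAt ℂ (fun x => f x a b) x := by
  rw [differentiableAt_pi]
  exact forall_congr' fun a => differentiableAt_pi

theorem pq_an {X : Type} [NormedAddCommGroup X] [NormedSpace ℂ X]
    {J : X → Matrix (Fin d) (Fin d) ℂ} {s : X → V2 d} {x : X}
    (hJ : ∀ a b, AnalyticAt ℂ (fun x => J x a b) x) (hs : AnalyticAt ℂ s x) :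
    AnalyticAt ℂ (fun x => pq (J x) (s x)) x := by
  rw [an_iff]
  intro k l
  exact Finset.analyticAt_fun_sum _ fun a _ => Finset.analyticAt_fun_sum _ fun b _ =>
    ((hJ a k).mul (an_iff.1 hs a b)).mul (hJ b l)

theorem pq_diffAt {X : Type} [NormedAddCommGroup X] [NormedSpace ℂ X]
    {J : X → Matrix (Fin d) (Fin d) ℂ} {s : X → V2 d} {x : X}
    (hJ : ∀ a b, DifferentiableAt ℂ (fun x => J x a b) x) (hs : DifferentiableAt ℂ s x) :
    DifferentiableAt ℂ (fun x => pq (J x) (s x)) x := by
  rw [diffAt_iff]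
  intro k l
  exact DifferentiableAt.fun_sum fun a _ => DifferentiableAt.fun_sum fun b _ =>
    ((hJ a k).mul (diffAt_iff.1 hs a b)).mul (hJ b l)

/-! ### Closed forms -/

/-- `f` is closed at `z`. -/
def ClAt (f : Cm d → V2 d) (z : Cm d) : Prop :=
  ∀ j k l, dd l (fun z => f z j k) z + dd j (fun z => f z k l) z + dd k (fun z => f z l j) z = 0

theorem ClAt.congr {f g : Cm d → V2 d} {z : Cm d} (h : ClAt f z) (hfg : g =ᶠ[𝓝 z] f) :
    ClAt g z := by
  intro j k l
  have h1 : ∀ a b c, dd c (fun z => g z a b) z = dd c (fun z => f z a b) z := by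
    intro a b c
    unfold dd
    have : (fun z => g z a b) =ᶠ[𝓝 z] fun z => f z a b := hfg.mono fun y hy => by
      show g y a b = f y a b
      rw [hy]
    rw [this.fderiv_eq]
  rw [h1, h1, h1]
  exact h j k l

theorem dd_smul (c : ℂ) {f : Cm d → ℂ} {z : Cm d} (k : Fin d) :
    dd k (fun z => c * f z) z = c * dd k f z := by
  unfold dd
  by_cases hc : c = 0
  · subst hc
    simp
  · by_cases hf : DifferentiableAt ℂ f z
    · have h1 : fderiv ℂ (fun z => c * f z) z = c • fderiv ℂ f z := (hf.hasFDerivAt.const_mul c).fderiv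
      rw [h1]
      rfl
    · have h2 : ¬ DifferentiableAt ℂ (fun z => c * f z) z := by
        intro h3
        apply hf
        have h4 := h3.const_mul c⁻¹
        have h5 : (fun z => c⁻¹ * (c * f z)) = f := by
          funext y
          rw [← mul_assoc, inv_mul_cancel₀ hc, one_mul]
        rwa [h5] at h4
      rw [fderiv_zero_of_not_differentiableAt hf, fderiv_zero_of_not_differentiableAt h2]
      simp

theorem ClAt.smul (c : ℂ) {f : Cm d → V2 d} {z : Cm d} (h : ClAt f z) :
    ClAt (fun z => c • f z) z := by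
  intro j k l
  have h1 : ∀ a b e, dd e (fun z => (c • f z) a b) z = c * dd e (fun z => f z a b) z := by
    intro a b e
    exact dd_smul c e
  rw [h1, h1, h1, ← mul_add, ← mul_add, h j k l, mul_zero]

theorem ClAt.sub {f g : Cm d → V2 d} {z : Cm d} (h : ClAt f z) (hg : ClAt g z)
    (df : DifferentiableAt ℂ f z) (dg : DifferentiableAt ℂ g z) :
    ClAt (fun z => f z - g z) z := by
  intro j k l
  have h1 : ∀ a b e, dd e (fun z => (f z - g z) a b) z =
      dd e (fun z => f z a b) z - dd e (fun z => g z a b) z := by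
    intro a b e
    unfold dd
    have h2 : fderiv ℂ (fun z => (f z - g z) a b) z =
        fderiv ℂ (fun z => f z a b) z - fderiv ℂ (fun z => g z a b) z :=
      ((diffAt_iff.1 df a b).hasFDerivAt.sub (diffAt_iff.1 dg a b).hasFDerivAt).fderiv
    rw [h2]
    rfl
  rw [h1, h1, h1]
  linear_combination h j k l - hg j k l

/-- The pull-back of a closed form is closed. -/
theorem ClAt.pull {θ : Cm d → Cm d} {z w : Cm d} (hθ : AnalyticAt ℂ θ z) (hw : θ z = w)
    {v : Cm d → V2 d} (hv : DifferentiableAt ℂ v w) (ha : ∀ a b, v w a b = - v w b a)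
    (hc : ClAt v w) : ClAt (fun z => pq (jac θ z) (v (θ z))) z := by
  subst hw
  set J : Fin d → Fin d → ℂ := fun a j => jac θ z a j with hJ
  set H : Fin d → Fin d → Fin d → ℂ := fun a j l => dd l (fun u => jac θ u a j) z with hH
  set D : Fin d → Fin d → Fin d → ℂ := fun a b c => dd c (fun y => v y a b) (θ z) with hD
  have hJan : ∀ a j, AnalyticAt ℂ (fun u => jac θ u a j) z := by
    intro a j
    exact (((ContinuousLinearMap.proj (R := ℂ) (φ := fun _ : Fin d => ℂ) a).comp
      (ContinuousLinearMap.apply ℂ (Cm d) (Pi.single j (1 : ℂ) : Cm d))).analyticAt _).comp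
        hθ.fderiv
  have hJd : ∀ a j, DifferentiableAt ℂ (fun u => jac θ u a j) z := fun a j =>
    (hJan a j).differentiableAt
  -- symmetry of the second derivatives
  have hsym : ∀ a j l, H a j l = H a l j := by
    intro a j l
    have h1 : ∀ (a j l : Fin d), H a j l =
        fderiv ℂ (fderiv ℂ θ) z (Pi.single l 1) (Pi.single j 1) a := by
      intro a j l
      have h2 : HasFDerivAt (fun u => jac θ u a j)
          (((ContinuousLinearMap.proj (R := ℂ) (φ := fun _ : Fin d => ℂ) a).comp
            (ContinuousLinearMap.apply ℂ (Cm d) (Pi.single j (1 : ℂ) : Cm d))).comp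
              (fderiv ℂ (fderiv ℂ θ) z)) z :=
        (((ContinuousLinearMap.proj (R := ℂ) (φ := fun _ : Fin d => ℂ) a).comp
          (ContinuousLinearMap.apply ℂ (Cm d)
            (Pi.single j (1 : ℂ) : Cm d))).hasFDerivAt).comp z
            hθ.fderiv.differentiableAt.hasFDerivAt
      simp only [hH, dd]
      rw [h2.fderiv]
      rfl
    have h3 : IsSymmSndFDerivAt ℂ θ z :=
      (hθ.contDiffAt (n := ⊤)).isSymmSndFDerivAt le_top
    rw [h1, h1, h3 (Pi.single l 1) (Pi.single j 1)]
  -- the chain rule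
  have hchain : ∀ a b l, dd l (fun u => v (θ u) a b) z = ∑ c, D a b c * J c l := by
    intro a b l
    have h1 : HasFDerivAt (fun u => v (θ u) a b)
        ((fderiv ℂ (fun y => v y a b) (θ z)).comp (fderiv ℂ θ z)) z :=
      (diffAt_iff.1 hv a b).hasFDerivAt.comp z hθ.differentiableAt.hasFDerivAt
    unfold dd
    rw [h1.fderiv]
    show fderiv ℂ (fun y => v y a b) (θ z) (fderiv ℂ θ z (Pi.single l 1)) = _
    have h2 : fderiv ℂ θ z (Pi.single l 1) = ∑ c, J c l • (Pi.single c 1 : Cm d) := by
      funext x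
      rw [Finset.sum_apply]
      simp only [Pi.smul_apply, Pi.single_apply, smul_eq_mul, mul_ite, mul_one, mul_zero,
        Finset.sum_ite_eq, Finset.mem_univ, if_true]
      rfl
    rw [h2, map_sum]
    refine Finset.sum_congr rfl fun c _ => ?_
    rw [map_smul, smul_eq_mul, mul_comm]
    rfl
  have key : ∀ j k l, dd l (fun u => pq (jac θ u) (v (θ u)) j k) z =
      ∑ a, ∑ b, (H a j l * v (θ z) a b * J b k + J a j * (∑ c, D a b c * J c l) * J b k +
        J a j * v (θ z) a b * H b k l) := by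
    intro j k l
    have dv : ∀ a b, DifferentiableAt ℂ (fun u => v (θ u) a b) z := fun a b =>
      ((diffAt_iff.1 hv a b).comp z hθ.differentiableAt)
    have h1 : ∀ a b, HasFDerivAt (fun u => jac θ u a j * v (θ u) a b * jac θ u b k)
        ((jac θ z a j * v (θ z) a b) • fderiv ℂ (fun u => jac θ u b k) z +
          jac θ z b k • (jac θ z a j • fderiv ℂ (fun u => v (θ u) a b) z +
            v (θ z) a b • fderiv ℂ (fun u => jac θ u a j) z)) z := by
      intro a b
      exact ((hJd a j).hasFDerivAt.mul (dv a b).hasFDerivAt).mul (hJd b k).hasFDerivAt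
    have h2 : HasFDerivAt (fun u => pq (jac θ u) (v (θ u)) j k)
        (∑ a, ∑ b, ((jac θ z a j * v (θ z) a b) • fderiv ℂ (fun u => jac θ u b k) z +
          jac θ z b k • (jac θ z a j • fderiv ℂ (fun u => v (θ u) a b) z +
            v (θ z) a b • fderiv ℂ (fun u => jac θ u a j) z))) z := by
      unfold pq
      exact HasFDerivAt.fun_sum fun a _ => HasFDerivAt.fun_sum fun b _ => h1 a b
    unfold dd
    rw [h2.fderiv, sum_apply]
    refine Finset.sum_congr rfl fun a _ => ?_
    rw [sum_apply]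
    refine Finset.sum_congr rfl fun b _ => ?_
    have e1 := hchain a b l
    unfold dd at e1
    simp only [hH, hJ, dd, add_apply, smul_apply, smul_eq_mul]
    rw [e1]
    ring
  intro j k l
  rw [key, key, key]
  -- split the sums
  have hsplit : ∀ j k l, ∑ a, ∑ b, (H a j l * v (θ z) a b * J b k +
      J a j * (∑ c, D a b c * J c l) * J b k + J a j * v (θ z) a b * H b k l) =
      (∑ a, ∑ b, H a j l * v (θ z) a b * J b k) +
      (∑ a, ∑ b, ∑ c, D a b c * (J a j * J b k * J c l)) -
      ∑ a, ∑ b, H a k l * v (θ z) a b * J b j := by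
    intro j k l
    have h1 : ∑ a, ∑ b, J a j * v (θ z) a b * H b k l =
        - ∑ a, ∑ b, H a k l * v (θ z) a b * J b j := by
      rw [Finset.sum_comm, ← Finset.sum_neg_distrib]
      refine Finset.sum_congr rfl fun a _ => ?_
      rw [← Finset.sum_neg_distrib]
      refine Finset.sum_congr rfl fun b _ => ?_
      rw [ha b a]
      ring
    simp only [Finset.sum_add_distrib, h1]
    have h2 : ∑ a, ∑ b, J a j * (∑ c, D a b c * J c l) * J b k =
        ∑ a, ∑ b, ∑ c, D a b c * (J a j * J b k * J c l) := by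
      refine Finset.sum_congr rfl fun a _ => Finset.sum_congr rfl fun b _ => ?_
      rw [Finset.mul_sum, Finset.sum_mul]
      exact Finset.sum_congr rfl fun c _ => by ring
    rw [h2]
    ring
  rw [hsplit, hsplit, hsplit]
  have hcyc : ∀ G : Fin d → Fin d → Fin d → ℂ,
      ∑ a, ∑ b, ∑ c, G a b c = ∑ a, ∑ b, ∑ c, G b c a := by
    intro G
    have h1 : ∑ a, ∑ b, ∑ c, G b c a = ∑ b, ∑ a, ∑ c, G b c a := Finset.sum_comm
    rw [h1]
    exact Finset.sum_congr rfl fun b _ => Finset.sum_comm
  have e1 := hcyc fun a b c => D a b c * (J a k * J b l * J c j)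
  have e2 := (hcyc fun a b c => D a b c * (J a l * J b j * J c k)).trans
    (hcyc fun a b c => D b c a * (J b l * J c j * J a k))
  have e3 : (∑ a, ∑ b, ∑ c, D a b c * (J a j * J b k * J c l)) +
      (∑ a, ∑ b, ∑ c, D b c a * (J b k * J c l * J a j)) +
      (∑ a, ∑ b, ∑ c, D c a b * (J c l * J a j * J b k)) = 0 := by
    rw [← Finset.sum_add_distrib, ← Finset.sum_add_distrib]
    refine Finset.sum_eq_zero fun a _ => ?_
    rw [← Finset.sum_add_distrib, ← Finset.sum_add_distrib]
    refine Finset.sum_eq_zero fun b _ => ?_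
    rw [← Finset.sum_add_distrib, ← Finset.sum_add_distrib]
    refine Finset.sum_eq_zero fun c _ => ?_
    have h1 : D a b c + D b c a + D c a b = 0 := hc a b c
    linear_combination (J a j * J b k * J c l) * h1
  have e4 : ∀ j l k, ∑ a, ∑ b, H a j l * v (θ z) a b * J b k =
      ∑ a, ∑ b, H a l j * v (θ z) a b * J b k := fun j l k =>
    Finset.sum_congr rfl fun a _ => Finset.sum_congr rfl fun b _ => by rw [hsym]
  linear_combination e3 + e1 + e2 + e4 j l k - e4 k l j + e4 k j l

end lin

end Vale.Agent.P281.H594.HK
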