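import Vale.Agent.P281.H594.HK.Gr0

/-!
# P281, T-HK, block D2-HK (helper594): forms on the sheets, limits
-/

open Set Filter Metric
open scoped Topology

noncomputable section

namespace Vale.Agent.P281.H594.HK

open Vale.Agent.P281.H64.TK Vale.Agent.P281.H64.TK.TS Vale.Agent.P281.H603.K
open Vale.Agent.P281.H83.HK
open Vale.Agent.P281.H594.TS (tm tm_eq tm_of tm_nhds tm_fam jac_comp jac_id jac_congr cover1)
open Vale.Agent.P272.K (Cm)

/-- `f` is a closed holomorphic 2-form on the open set `R`. -/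
structure Fm {d : ℕ} (f : Cm d → V2 d) (R : Set (Cm d)) : Prop where
  hol : DifferentiableOn ℂ f R
  alt : ∀ z ∈ R, ∀ a b, f z a b = - f z b a
  cl : ∀ z ∈ R, ClAt f z

theorem Fm.smul {d : ℕ} {f : Cm d → V2 d} {R : Set (Cm d)} (h : Fm f R) (c : ℂ) :
    Fm (fun z => c • f z) R where
  hol := h.hol.const_smul c
  alt z hz a b := by
    show c * f z a b = - (c * f z b a)
    rw [h.alt z hz a b, mul_neg]
  cl z hz := (h.cl z hz).smul c

theorem Fm.sub {d : ℕ} {f g : Cm d → V2 d} {R : Set (Cm d)} (hR : IsOpen R) (h : Fm f R)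
    (hg : Fm g R) : Fm (fun z => f z - g z) R where
  hol := h.hol.sub hg.hol
  alt z hz a b := by
    show f z a b - g z a b = - (f z b a - g z b a)
    rw [h.alt z hz a b, hg.alt z hz a b]
    ring
  cl z hz := (h.cl z hz).sub (hg.cl z hz) (h.hol.differentiableAt (hR.mem_nhds hz))
    (hg.hol.differentiableAt (hR.mem_nhds hz))

theorem Fm.mono {d : ℕ} {f : Cm d → V2 d} {R R' : Set (Cm d)} (h : Fm f R) (hR : R' ⊆ R) :
    Fm f R' := ⟨h.hol.mono hR, fun z hz => h.alt z (hR hz), fun z hz => h.cl z (hR hz)⟩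

/-- The derivatives converge. -/
theorem dd_lim {d : ℕ} {ι : Type} (U : Ultrafilter ι) {f : ι → Cm d → ℂ} {v : Cm d → ℂ} {R : ℝ}
    (hf : ∀ᶠ k in (U : Filter ι), DifferentiableOn ℂ (f k) (ball 0 R))
    (hv : DifferentiableOn ℂ v (ball 0 R))
    (hl : ∀ z ∈ ball (0 : Cm d) R,
      Tendsto (fun q : ι × Cm d => f q.1 q.2) ((U : Filter ι) ×ˢ 𝓝 z) (𝓝 (v z)))
    {z : Cm d} (hz : z ∈ ball (0 : Cm d) R) (e : Fin d) :
    Tendsto (fun k => dd e (f k) z) U (𝓝 (dd e v z)) := by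
  set L : ℂ → Cm d := fun s => z + s • (Pi.single e 1 : Cm d) with hL
  have hLc : Continuous L := by
    have : Continuous fun s : ℂ => z + s • (Pi.single e 1 : Cm d) := by fun_prop
    exact this
  have hLd : Differentiable ℂ L := by
    have : Differentiable ℂ fun s : ℂ => z + s • (Pi.single e 1 : Cm d) := by fun_prop
    exact this
  have hL0 : L 0 = z := by simp [hL]
  set V : Set ℂ := L ⁻¹' ball 0 R with hV
  have hVo : IsOpen V := isOpen_ball.preimage hLc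
  have h0V : (0 : ℂ) ∈ V := by
    show L 0 ∈ ball (0 : Cm d) R
    rw [hL0]; exact hz
  have hderiv : ∀ g : Cm d → ℂ, DifferentiableOn ℂ g (ball 0 R) →
      deriv (fun s => g (L s)) 0 = dd e g z := by
    intro g hg
    have h1 : HasDerivAt L (Pi.single e 1 : Cm d) 0 := by
      have h2 : HasDerivAt (fun s : ℂ => s • (Pi.single e 1 : Cm d)) (Pi.single e 1 : Cm d) 0 := by
        simpa using (hasDerivAt_id (0 : ℂ)).smul_const (Pi.single e 1 : Cm d)
      exact h2.const_add z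
    have h3 : HasFDerivAt g (fderiv ℂ g z) (L 0) := by
      rw [hL0]
      exact (hg.differentiableAt (isOpen_ball.mem_nhds hz)).hasFDerivAt
    exact (h3.comp_hasDerivAt 0 h1).deriv
  have hloc : TendstoLocallyUniformlyOn (fun k s => f k (L s)) (fun s => v (L s)) U V := by
    rw [tendstoLocallyUniformlyOn_iff_forall_tendsto]
    intro s hs
    have h1 : Tendsto (fun y : ι × ℂ => v (L y.2)) ((U : Filter ι) ×ˢ 𝓝[V] s) (𝓝 (v (L s))) := by
      have h2 : ContinuousAt (fun s => v (L s)) s :=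
        ContinuousAt.comp (g := v) (hv.differentiableAt (isOpen_ball.mem_nhds hs)).continuousAt
          hLc.continuousAt
      exact (h2.tendsto.mono_left nhdsWithin_le_nhds).comp tendsto_snd
    have h3 : Tendsto (fun y : ι × ℂ => f y.1 (L y.2)) ((U : Filter ι) ×ˢ 𝓝[V] s)
        (𝓝 (v (L s))) := by
      have h6 : Tendsto (fun y : ι × ℂ => (y.1, L y.2)) ((U : Filter ι) ×ˢ 𝓝[V] s)
          ((U : Filter ι) ×ˢ 𝓝 (L s)) := tendsto_fst.prodMk
        ((hLc.continuousAt.tendsto.mono_left nhdsWithin_le_nhds).comp tendsto_snd)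
      exact (hl (L s) hs).comp h6
    have h4 := h1.prodMk_nhds h3
    exact h4.mono_right (by rw [nhds_prod_eq, ← nhds_prod_eq]; exact nhds_le_uniformity _)
  have hd : ∀ᶠ k in (U : Filter ι), DifferentiableOn ℂ (fun s => f k (L s)) V := by
    filter_upwards [hf] with k hk
    exact hk.comp hLd.differentiableOn fun s hs => hs
  have h5 := (hloc.deriv hd hVo).tendsto_at h0V
  simp only [Function.comp_def] at h5
  rw [hderiv v hv] at h5
  refine h5.congr' ?_
  filter_upwards [hf] with k hk using hderiv (f k) hk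

/-- **Montel.** -/
theorem lim2 {d : ℕ} {ι : Type} (U : Ultrafilter ι) {f : ι → Cm d → V2 d} {R C : ℝ}
    (hf : ∀ᶠ k in (U : Filter ι), Fm (f k) (ball 0 R))
    (hb : ∀ᶠ k in (U : Filter ι), ∀ z ∈ ball (0 : Cm d) R, ‖f k z‖ ≤ C) :
    ∃ v : Cm d → V2 d, Fm v (ball 0 R) ∧ ∀ z ∈ ball (0 : Cm d) R,
      Tendsto (fun q : ι × Cm d => f q.1 q.2) ((U : Filter ι) ×ˢ 𝓝 z) (𝓝 (v z)) := by
  have h1 : ∀ a b, ∃ v : Cm d → ℂ, DifferentiableOn ℂ v (ball 0 R) ∧ ∀ z ∈ ball (0 : Cm d) R,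
      Tendsto (fun q : ι × Cm d => f q.1 q.2 a b) ((U : Filter ι) ×ˢ 𝓝 z) (𝓝 (v z)) := by
    intro a b
    refine exists_limit U (f := fun k z => f k z a b) (R := R) (C := C) ?_ ?_
    · filter_upwards [hf] with k hk using diff_iff.1 hk.hol a b
    · filter_upwards [hb] with k hk z hz
      exact (norm_le_pi_norm (f k z a) b).trans ((norm_le_pi_norm (f k z) a).trans (hk z hz))
  choose v hv hvl using h1
  refine ⟨fun z a b => v a b z, ⟨diff_iff.2 hv, fun z hz a b => ?_, fun z hz j k l => ?_⟩,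
    fun z hz => tendsto_pi_nhds.2 fun a => tendsto_pi_nhds.2 fun b => hvl a b z hz⟩
  · have k1 : ∀ a b, Tendsto (fun k => f k z a b) U (𝓝 (v a b z)) := fun a b =>
      tendsto_of_prod (f := fun k z => f k z a b) (hvl a b z hz) tendsto_const_nhds
    refine tendsto_nhds_unique (k1 a b) ?_
    refine (k1 b a).neg.congr' ?_
    filter_upwards [hf] with k hk
    rw [hk.alt z hz a b]
  · have k1 : ∀ a b e, Tendsto (fun k => dd e (fun z => f k z a b) z) U (𝓝 (dd e (v a b) z)) :=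
      fun a b e => dd_lim U (f := fun k z => f k z a b) (by
        filter_upwards [hf] with k hk using diff_iff.1 hk.hol a b) (hv a b) (hvl a b) hz e
    refine tendsto_nhds_unique (((k1 j k l).add (k1 k l j)).add (k1 l j k)) ?_
    refine tendsto_const_nhds.congr' ?_
    filter_upwards [hf] with k' hk
    exact (hk.cl z hz j k l).symm

section sheets
variable {d : ℕ} {E Γ : Type} [TopologicalSpace E] [Group Γ] [MulAction Γ E]

/-- The Jacobian matrix of the transition map. -/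
def jm (σ τ : Cm d → E) (z : Cm d) : Matrix (Fin d) (Fin d) ℂ := jac (tm σ τ) z

theorem jm_of (S : Sheets d E Γ) {i j : Fin S.N} {z w : Cm d} (hw : w ∈ ball (0 : Cm d) 3)
    {θ : Cm d → Cm d} (hc : ContinuousAt θ z) (hθ : θ z = w)
    (hev : ∀ᶠ u in 𝓝 z, S.σ i u = S.σ j (θ u)) : jm (S.σ i) (S.σ j) z = jac θ z := by
  unfold jm
  rw [jac_congr (tm_of S hw hc hθ hev)]

theorem jm_self (S : Sheets d E Γ) {i : Fin S.N} {z : Cm d} (hz : z ∈ ball (0 : Cm d) 3) :
    jm (S.σ i) (S.σ i) z = 1 := by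
  rw [jm_of S (θ := fun u => u) hz continuousAt_id rfl (Eventually.of_forall fun _ => rfl),
    jac_id]

theorem jm_cocycle (S : Sheets d E Γ) {i j k : Fin S.N} {z w x : Cm d}
    (hz : z ∈ ball (0 : Cm d) 3) (hw : w ∈ ball (0 : Cm d) 3) (hx : x ∈ ball (0 : Cm d) 3)
    (h1 : S.σ i z = S.σ j w) (h2 : S.σ j w = S.σ k x) :
    jm (S.σ i) (S.σ k) z = jm (S.σ j) (S.σ k) w * jm (S.σ i) (S.σ j) z := by
  obtain ⟨a1, a2, a3⟩ := tm_nhds S hz hw h1
  obtain ⟨b1, b2, b3⟩ := tm_nhds S hw hx h2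
  have hc : ContinuousAt (fun u => tm (S.σ j) (S.σ k) (tm (S.σ i) (S.σ j) u)) z := by
    have b1' : ContinuousAt (tm (S.σ j) (S.σ k)) (tm (S.σ i) (S.σ j) z) := by
      rw [a2]; exact b1.continuousAt
    exact ContinuousAt.comp (g := tm (S.σ j) (S.σ k)) (f := tm (S.σ i) (S.σ j)) b1' a1.continuousAt
  rw [jm_of S (θ := fun u => tm (S.σ j) (S.σ k) (tm (S.σ i) (S.σ j) u)) hx hc (by
    show tm (S.σ j) (S.σ k) (tm (S.σ i) (S.σ j) z) = x
    rw [a2, b2]) ?_]
  · rw [jac_comp a2 b1.differentiableAt a1.differentiableAt]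
    rfl
  · have h3 : ∀ᶠ u in 𝓝 z, S.σ j (tm (S.σ i) (S.σ j) u) =
        S.σ k (tm (S.σ j) (S.σ k) (tm (S.σ i) (S.σ j) u)) := by
      have h4 := a1.continuousAt.tendsto
      rw [a2] at h4
      exact (h4.eventually b3).mono fun u hu => hu.2
    filter_upwards [a3, h3] with u k1 k2
    rw [k1.2, k2]

/-- The relation between the sheets. -/
def Rel2 (S : Sheets d E Γ) (R : ℝ) (v : Fin S.N → Cm d → V2 d) : Prop :=
  ∀ i j, ∀ z ∈ ball (0 : Cm d) R, ∀ w ∈ ball (0 : Cm d) R,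
    S.σ i z = S.σ j w → v i z = pq (jm (S.σ i) (S.σ j) z) (v j w)

theorem Hol2.rel {S : Sheets d E Γ} {s : Fin S.N → Cm d → Matrix (Fin d) (Fin d) ℂ}
    (H : Hol2 S s) : Rel2 S 3 s := by
  intro i j z hz w hw h1
  obtain ⟨a1, a2, a3⟩ := tm_nhds S hz hw h1
  have h2 := H.change i j z hz w hw _ a1 a2 (a3.mono fun u hu => hu.2)
  exact h2.trans (pq_eq _ _).symm

theorem Hol2.fm {S : Sheets d E Γ} {s : Fin S.N → Cm d → Matrix (Fin d) (Fin d) ℂ}
    (H : Hol2 S s) (i : Fin S.N) : Fm (s i) (ball 0 3) where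
  hol := diff_iff.2 fun a b => H.hol i a b
  alt z hz a b := by
    have h1 := congrFun (congrFun (H.alt i z hz) b) a
    simpa [Matrix.transpose_apply] using h1
  cl z hz := H.closed i z hz

theorem hol2_of {S : Sheets d E Γ} {v : Fin S.N → Cm d → V2 d}
    (h1 : ∀ i, Fm (v i) (ball 0 3)) (h2 : Rel2 S 3 v) : Hol2 S v where
  hol i j k := diff_iff.1 (h1 i).hol j k
  alt i z hz := by
    ext a b
    exact (h1 i).alt z hz b a
  closed i z hz := (h1 i).cl z hz
  change i j z hz z' hz' θ hθ hθx hev := by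
    have h0 : S.σ i z = S.σ j z' := by
      have := hev.self_of_nhds
      rwa [hθx] at this
    have h3 := h2 i j z hz z' hz' h0
    rw [jm_of S hz' hθ.continuousAt hθx hev] at h3
    exact h3.trans (pq_eq _ _)

section
variable [Subsingleton Γ]

/-- Forms on the smaller balls give a form. -/
theorem glue2 (S : Sheets d E Γ) {v : Fin S.N → Cm d → V2 d}
    (hv : ∀ i, Fm (v i) (ball 0 2)) (hr : Rel2 S 2 v) :
    ∃ s, Hol2 S s ∧ ∀ i, ∀ z ∈ ball (0 : Cm d) 2, s i z = v i z := by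
  choose i z hz he using cover1 S
  have hz2 : ∀ e, z e ∈ ball (0 : Cm d) 2 := fun e => by
    rw [mem_ball_zero_iff]; linarith [hz e]
  have hz3 : ∀ e, z e ∈ ball (0 : Cm d) 3 := fun e => Sh.mem3 (hz e)
  have h23 : ball (0 : Cm d) 2 ⊆ ball (0 : Cm d) 3 := ball_subset_ball (by norm_num)
  set s : Fin S.N → Cm d → V2 d := fun j x =>
    pq (jm (S.σ j) (S.σ (i (S.σ j x))) x) (v (i (S.σ j x)) (z (S.σ j x))) with hs
  have key : ∀ (j : Fin S.N), ∀ x ∈ ball (0 : Cm d) 3, ∀ (k : Fin S.N), ∀ w ∈ ball (0 : Cm d) 2,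
      S.σ j x = S.σ k w → s j x = pq (jm (S.σ j) (S.σ k) x) (v k w) := by
    intro j x hx k w hw h
    simp only [hs]
    set e := S.σ j x with hedef
    rw [hr (i e) k (z e) (hz2 e) w hw ((he e).trans h), pq_pq,
      jm_cocycle S (i := j) (j := i e) (k := k) hx (hz3 e) (h23 hw) (he e).symm ((he e).trans h)]
  have hfm : ∀ j, Fm (s j) (ball 0 3) := by
    intro j
    have hloc : ∀ x₀ ∈ ball (0 : Cm d) 3, ∃ (k : Fin S.N) (θ : Cm d → Cm d), AnalyticAt ℂ θ x₀ ∧
        θ x₀ ∈ ball (0 : Cm d) 2 ∧ s j =ᶠ[𝓝 x₀] fun u => pq (jac θ u) (v k (θ u)) := by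
      intro x₀ hx₀
      set e := S.σ j x₀ with hedef
      obtain ⟨a1, a2, a3⟩ := tm_nhds S (i := j) (j := i e) hx₀ (hz3 e) (he e).symm
      have h4 : ∀ᶠ u in 𝓝 x₀, tm (S.σ j) (S.σ (i e)) u ∈ ball (0 : Cm d) 2 :=
        a1.continuousAt.eventually (isOpen_ball.mem_nhds (a2.symm ▸ hz2 e))
      refine ⟨i e, tm (S.σ j) (S.σ (i e)), a1, by rw [a2]; exact hz2 e, ?_⟩
      filter_upwards [a3, h4, isOpen_ball.mem_nhds hx₀] with u k1 k2 k3
      exact key _ _ k3 _ _ k2 k1.2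
    refine ⟨fun x₀ hx₀ => ?_, fun x₀ hx₀ a b => ?_, fun x₀ hx₀ => ?_⟩
    · obtain ⟨k, θ, h1, h2, h3⟩ := hloc x₀ hx₀
      have h4 : DifferentiableAt ℂ (fun u => pq (jac θ u) (v k (θ u))) x₀ := by
        refine pq_diffAt (fun a b => ?_) ?_
        · exact ((((ContinuousLinearMap.proj (R := ℂ) (φ := fun _ : Fin d => ℂ) a).comp
            (ContinuousLinearMap.apply ℂ (Cm d) (Pi.single b (1 : ℂ) : Cm d))).analyticAt _).comp
              h1.fderiv).differentiableAt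
        · exact DifferentiableAt.comp (g := v k) x₀
            ((hv k).hol.differentiableAt (isOpen_ball.mem_nhds h2)) h1.differentiableAt
      exact (h4.congr_of_eventuallyEq h3).differentiableWithinAt
    · obtain ⟨k, θ, h1, h2, h3⟩ := hloc x₀ hx₀
      rw [h3.self_of_nhds]
      exact pq_alt ((hv k).alt _ h2) a b
    · obtain ⟨k, θ, h1, h2, h3⟩ := hloc x₀ hx₀
      exact (ClAt.pull h1 rfl ((hv k).hol.differentiableAt (isOpen_ball.mem_nhds h2))
        ((hv k).alt _ h2) ((hv k).cl _ h2)).congr h3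
  refine ⟨s, hol2_of hfm fun j k x hx x' hx' h0 => ?_, fun j x hx => ?_⟩
  · set e := S.σ j x with hedef
    rw [key j x hx (i e) (z e) (hz2 e) (he e).symm,
      key k x' hx' (i e) (z e) (hz2 e) (h0.symm.trans (he e).symm), pq_pq,
      jm_cocycle S hx hx' (hz3 e) h0 (h0.symm.trans (he e).symm)]
  · rw [key j x (h23 hx) j x hx rfl, jm_self S (h23 hx), pq_one]

end

end sheets

section fam
variable {p d : ℕ} {E Γ : Type} [TopologicalSpace E] [Group Γ] [MulAction Γ E]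

theorem jm_fam (𝓕 : Fam p d E Γ) {i j : Fin 𝓕.N} {t₁ : Cm p} (ht₁ : t₁ ∈ 𝓕.T) {z₀ w₀ : Cm d}
    (hz₀ : z₀ ∈ ball (0 : Cm d) 3) (hw₀ : w₀ ∈ ball (0 : Cm d) 3)
    (h : 𝓕.σ i t₁ z₀ = 𝓕.σ j t₁ w₀) (a b : Fin d) :
    AnalyticAt ℂ (fun q : Cm p × Cm d => jm (𝓕.σ i q.1) (𝓕.σ j q.1) q.2 a b) (t₁, z₀) := by
  obtain ⟨h1, -, -, -⟩ := tm_fam 𝓕 ht₁ hz₀ hw₀ h
  set F : Cm p × Cm d → Cm d := fun q => tm (𝓕.σ i q.1) (𝓕.σ j q.1) q.2 with hF
  have h2 : AnalyticAt ℂ (fun q => fderiv ℂ F q (0, Pi.single b 1) a) (t₁, z₀) :=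
    (((ContinuousLinearMap.proj (R := ℂ) (φ := fun _ : Fin d => ℂ) a).comp
      (ContinuousLinearMap.apply ℂ (Cm d) ((0, Pi.single b (1 : ℂ)) : Cm p × Cm d))).analyticAt
        _).comp h1.fderiv
  refine h2.congr ?_
  filter_upwards [h1.eventually_analyticAt] with q hq
  obtain ⟨t, z⟩ := q
  have h3 : HasFDerivAt (fun u => F (t, u)) ((fderiv ℂ F (t, z)).comp
      (ContinuousLinearMap.inr ℂ (Cm p) (Cm d))) z :=
    hq.differentiableAt.hasFDerivAt.comp z (hasFDerivAt_prodMk_right t z)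
  show _ = fderiv ℂ (fun u => F (t, u)) z (Pi.single b 1) a
  rw [h3.fderiv]
  rfl

end fam

attribute [irreducible] jm

end Vale.Agent.P281.H594.HK
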