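import Vale.Agent.P281.H594.HK.Gr1

/-!
# P281, T-HK, block D2-HK (helper594): limits of 2-forms in a family
-/

open Set Filter Metric
open scoped Topology

noncomputable section

namespace Vale.Agent.P281.H594.HK

open Vale.Agent.P281.H64.TK Vale.Agent.P281.H64.TK.TS Vale.Agent.P281.H603.K
open Vale.Agent.P281.H83.HK
open Vale.Agent.P281.H594.TS (tm tm_eq tm_of tm_nhds tm_fam jac_comp jac_id jac_congr cover1)
open Vale.Agent.P272.K (Cm)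

variable {p d : ℕ} {E Γ : Type} [TopologicalSpace E] [Group Γ] [MulAction Γ E]

theorem lim_prod {ι : Type} {l : Filter ι} {f : ι → Cm d → V2 d} {z : Cm d} {y : V2 d}
    (h : Tendsto (fun q : ι × Cm d => f q.1 q.2) (l ×ˢ 𝓝 z) (𝓝 y)) {z' : ι → Cm d}
    (hz : Tendsto z' l (𝓝 z)) : Tendsto (fun k => f k (z' k)) l (𝓝 y) :=
  h.comp (tendsto_id.prodMk hz)

/-- Functions on the sheets number `t k`, `t k → t₁`, which are 2-forms up to terms which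
converge. -/
structure SeqM (𝓕 : Fam p d E Γ) {ι : Type} (l : Filter ι) (t : ι → Cm p) (t₁ : Cm p)
    (u : ι → Fin 𝓕.N → Cm d → V2 d) (B : Fin 𝓕.N → Fin 𝓕.N → Cm d → Cm d → V2 d) : Prop where
  lim : Tendsto t l (𝓝 t₁)
  fm : ∀ᶠ k in l, ∀ i, Fm (u k i) (ball 0 3)
  rel : ∀ i j, ∀ z ∈ ball (0 : Cm d) 3, ∀ w ∈ ball (0 : Cm d) 3,
    𝓕.σ i t₁ z = 𝓕.σ j t₁ w → ∀ U : Ultrafilter ι, (U : Filter ι) ≤ l →
      ∀ z' w' : ι → Cm d, Tendsto z' U (𝓝 z) → Tendsto w' U (𝓝 w) →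
        (∀ᶠ k in (U : Filter ι), 𝓕.σ i (t k) (z' k) = 𝓕.σ j (t k) (w' k)) →
          Tendsto (fun k => u k i (z' k) -
            pq (jm (𝓕.σ i (t k)) (𝓕.σ j (t k)) (z' k)) (u k j (w' k))) U (𝓝 (B i j z w))

theorem SeqM.mono {𝓕 : Fam p d E Γ} {ι : Type} {l l' : Filter ι} {t : ι → Cm p} {t₁ : Cm p}
    {u : ι → Fin 𝓕.N → Cm d → V2 d} {B : Fin 𝓕.N → Fin 𝓕.N → Cm d → Cm d → V2 d}
    (h : SeqM 𝓕 l t t₁ u B) (hl : l' ≤ l) : SeqM 𝓕 l' t t₁ u B where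
  lim := h.lim.mono_left hl
  fm := hl h.fm
  rel i j z hz w hw hγ U hU := h.rel i j z hz w hw hγ U (hU.trans hl)

/-- Limits along an ultrafilter of bounded data. -/
theorem exists_limitsM (𝓕 : Fam p d E Γ) {ι : Type} (U : Ultrafilter ι)
    {t : ι → Cm p} {t₁ : Cm p} (ht₁ : t₁ ∈ 𝓕.T) {u : ι → Fin 𝓕.N → Cm d → V2 d}
    {B : Fin 𝓕.N → Fin 𝓕.N → Cm d → Cm d → V2 d} (H : SeqM 𝓕 (U : Filter ι) t t₁ u B) {C : ℝ}
    (hC : ∀ᶠ k in (U : Filter ι), ∀ i, ∀ z ∈ closedBall (0 : Cm d) 2, ‖u k i z‖ ≤ C) :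
    ∃ v : Fin 𝓕.N → Cm d → V2 d, (∀ i, Fm (v i) (ball 0 2)) ∧
      (∀ i, ∀ z ∈ ball (0 : Cm d) 2,
        Tendsto (fun q : ι × Cm d => u q.1 i q.2) ((U : Filter ι) ×ˢ 𝓝 z) (𝓝 (v i z))) ∧
      ∀ i j, ∀ z ∈ ball (0 : Cm d) 2, ∀ w ∈ ball (0 : Cm d) 2,
        𝓕.σ i t₁ z = 𝓕.σ j t₁ w →
          v i z - pq (jm (𝓕.σ i t₁) (𝓕.σ j t₁) z) (v j w) = B i j z w := by
  have h1 : ∀ i, ∃ v : Cm d → V2 d, Fm v (ball 0 2) ∧ ∀ z ∈ ball (0 : Cm d) 2,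
      Tendsto (fun q : ι × Cm d => u q.1 i q.2) ((U : Filter ι) ×ˢ 𝓝 z) (𝓝 (v z)) := by
    intro i
    refine lim2 U (f := fun k => u k i) (R := 2) (C := C) ?_ ?_
    · filter_upwards [H.fm] with k hk using (hk i).mono (ball_subset_ball (by norm_num))
    · filter_upwards [hC] with k hk z hz using hk i z (ball_subset_closedBall hz)
  choose v hv hvl using h1
  refine ⟨v, hv, hvl, fun i j z hz w hw h => ?_⟩
  have hz3 : z ∈ ball (0 : Cm d) 3 := ball_subset_ball (by norm_num) hz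
  have hw3 : w ∈ ball (0 : Cm d) 3 := ball_subset_ball (by norm_num) hw
  obtain ⟨k1, -, k2, k3⟩ := tm_fam 𝓕 ht₁ hz3 hw3 h
  have k1' := jm_fam 𝓕 ht₁ hz3 hw3 h
  have k4 : Tendsto (fun k => (t k, z)) (U : Filter ι) (𝓝 (t₁, z)) :=
    H.lim.prodMk_nhds tendsto_const_nhds
  have k5 : Tendsto (fun k => tm (𝓕.σ i (t k)) (𝓕.σ j (t k)) z) (U : Filter ι) (𝓝 w) := by
    have h5 := k1.continuousAt.tendsto.comp k4
    simp only [Function.comp_def] at h5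
    rwa [k2] at h5
  have k5' : ∀ a b, Tendsto (fun k => jm (𝓕.σ i (t k)) (𝓕.σ j (t k)) z a b) (U : Filter ι)
      (𝓝 (jm (𝓕.σ i t₁) (𝓕.σ j t₁) z a b)) := fun a b => (k1' a b).continuousAt.tendsto.comp k4
  have k6 := H.rel i j z hz3 w hw3 h U le_rfl (fun _ => z)
    (fun k => tm (𝓕.σ i (t k)) (𝓕.σ j (t k)) z) tendsto_const_nhds k5 (by
      filter_upwards [k4.eventually k3] with k hk using hk.2.2.2)
  refine tendsto_nhds_unique ?_ k6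
  have k7 : Tendsto (fun k => u k i z) U (𝓝 (v i z)) :=
    lim_prod (f := fun k => u k i) (hvl i z hz) tendsto_const_nhds
  have k8 : Tendsto (fun k => u k j (tm (𝓕.σ i (t k)) (𝓕.σ j (t k)) z)) U (𝓝 (v j w)) :=
    lim_prod (f := fun k => u k j) (hvl j w hw) k5
  exact k7.sub (pq_tendsto k5' k8)

/-- Forms on `S` are determined by one entry at the point `z₀` of the sheet `i₀`. -/
def Det2 (S : Sheets d E Γ) (i₀ : Fin S.N) (z₀ : Cm d) (a₀ b₀ : Fin d) : Prop :=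
  ∀ s, Hol2 S s → s i₀ z₀ a₀ b₀ = 0 → ∀ i, ∀ z ∈ ball (0 : Cm d) 3, s i z = 0

theorem max_exists2 {N : ℕ} (i₀ : Fin N) {u : Fin N → Cm d → V2 d}
    (hu : ∀ i, ContinuousOn (u i) (closedBall 0 2)) :
    ∃ m : ℝ, (∀ i, ∀ z ∈ closedBall (0 : Cm d) 2, ‖u i z‖ ≤ m) ∧
      ∃ i, ∃ z ∈ closedBall (0 : Cm d) 2, ‖u i z‖ = m := by
  have h1 : ∀ i, ∃ z ∈ closedBall (0 : Cm d) 2, IsMaxOn (fun z => ‖u i z‖) (closedBall 0 2) z :=
    fun i => (isCompact_closedBall (0 : Cm d) 2).exists_isMaxOn ⟨0, by simp⟩ (hu i).norm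
  choose z hz hmax using h1
  have : Nonempty (Fin N) := ⟨i₀⟩
  obtain ⟨i, hi⟩ := Finite.exists_max (fun i => ‖u i (z i)‖)
  exact ⟨_, fun j w hw => (hmax j hw).trans (hi j), i, z i, hz i, rfl⟩

section
variable [Subsingleton Γ]

theorem eq_zero_of_det2 (S : Sheets d E Γ) {i₀ : Fin S.N} {z₀ : Cm d} {a₀ b₀ : Fin d}
    (hG : Det2 S i₀ z₀ a₀ b₀) (hz₀ : z₀ ∈ ball (0 : Cm d) 2) {v : Fin S.N → Cm d → V2 d}
    (hv : ∀ i, Fm (v i) (ball 0 2)) (hr : Rel2 S 2 v)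
    (h0 : v i₀ z₀ a₀ b₀ = 0) : ∀ i, ∀ z ∈ ball (0 : Cm d) 2, v i z = 0 := by
  obtain ⟨s, h1, h2⟩ := glue2 S hv hr
  intro i z hz
  rw [← h2 i z hz]
  refine hG s h1 ?_ i z (ball_subset_ball (by norm_num) hz)
  have h3 : s i₀ z₀ = v i₀ z₀ := h2 i₀ z₀ hz₀
  rw [h3, h0]

variable [T2Space E] [ContinuousConstSMul Γ E]

/-- **Boundedness.** -/
theorem bddM (𝓕 : Fam p d E Γ) {ι : Type} (U : Ultrafilter ι)
    {t : ι → Cm p} {t₁ : Cm p} (ht₁ : t₁ ∈ 𝓕.T) {u : ι → Fin 𝓕.N → Cm d → V2 d}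
    {B : Fin 𝓕.N → Fin 𝓕.N → Cm d → Cm d → V2 d} (H : SeqM 𝓕 (U : Filter ι) t t₁ u B)
    {i₀ : Fin 𝓕.N} {z₀ : Cm d} {a₀ b₀ : Fin d} (hz₀ : z₀ ∈ ball (0 : Cm d) 2)
    (hG : Det2 (𝓕.at t₁ ht₁) i₀ z₀ a₀ b₀)
    {C₀ : ℝ} (h0 : ∀ᶠ k in (U : Filter ι), ‖u k i₀ z₀ a₀ b₀‖ ≤ C₀) :
    ∃ C : ℝ, ∀ᶠ k in (U : Filter ι), ∀ i, ∀ z ∈ closedBall (0 : Cm d) 2, ‖u k i z‖ ≤ C := by
  classical
  -- the maximum
  have hex : ∀ k, ∃ m : ℝ, (∀ i, Fm (u k i) (ball 0 3)) →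
      (∀ i, ∀ z ∈ closedBall (0 : Cm d) 2, ‖u k i z‖ ≤ m) ∧
      ∃ i, ∃ z ∈ closedBall (0 : Cm d) 2, ‖u k i z‖ = m := by
    intro k
    by_cases hk : ∀ i, Fm (u k i) (ball 0 3)
    · obtain ⟨m, hm⟩ := max_exists2 i₀ (u := u k)
        (fun i => ((hk i).hol.mono (closedBall_subset_ball (by norm_num))).continuousOn)
      exact ⟨m, fun _ => hm⟩
    · exact ⟨0, fun h => absurd h hk⟩
  choose m hm using hex
  by_contra hcon
  rw [not_exists] at hcon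
  have hbig : ∀ C : ℝ, ∀ᶠ k in (U : Filter ι), C < m k := by
    intro C
    have h1 := hcon C
    by_contra h2
    rw [← Ultrafilter.frequently_iff_eventually] at h2
    rw [not_frequently] at h2
    refine h1 ?_
    filter_upwards [h2, H.fm] with k k1 k2
    obtain ⟨k3, -⟩ := hm k k2
    push Not at k1
    exact fun i z hz => (k3 i z hz).trans k1
  have hminf : Tendsto m U atTop := tendsto_atTop.2 fun C => (hbig C).mono fun k hk => hk.le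
  have hinv : Tendsto (fun k => ((m k : ℂ))⁻¹) U (𝓝 0) := by
    have h1 : Tendsto (fun k => (m k)⁻¹) U (𝓝 0) := tendsto_inv_atTop_zero.comp hminf
    have h2 := (Complex.continuous_ofReal.tendsto 0).comp h1
    simpa [Function.comp_def] using h2
  -- the normalised data
  set u' : ι → Fin 𝓕.N → Cm d → V2 d := fun k i z => (m k : ℂ)⁻¹ • u k i z with hu'
  have H' : SeqM 𝓕 (U : Filter ι) t t₁ u' (fun _ _ _ _ => 0) := by
    refine ⟨H.lim, ?_, ?_⟩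
    · filter_upwards [H.fm] with k hk i using (hk i).smul _
    · intro i j z hz w hw hγ V hV z' w' hz' hw' hr
      have h1 := H.rel i j z hz w hw hγ V hV z' w' hz' hw' hr
      have h2 := (hinv.mono_left hV).smul h1
      rw [zero_smul] at h2
      refine h2.congr fun k => ?_
      simp only [hu']
      rw [smul_sub, pq_smul]
  have hpos : ∀ᶠ k in (U : Filter ι), 0 < m k := hbig 0
  have hnm : ∀ k, 0 < m k → ‖(m k : ℂ)⁻¹‖ = (m k)⁻¹ := fun k k1 => by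
    rw [norm_inv, Complex.norm_real, Real.norm_of_nonneg k1.le]
  have hC' : ∀ᶠ k in (U : Filter ι), ∀ i, ∀ z ∈ closedBall (0 : Cm d) 2, ‖u' k i z‖ ≤ 1 := by
    filter_upwards [hpos, H.fm] with k k1 k2
    obtain ⟨k3, -⟩ := hm k k2
    intro i z hz
    simp only [hu', norm_smul, hnm k k1]
    rw [inv_mul_le_iff₀ k1, mul_one]
    exact k3 i z hz
  obtain ⟨v, hv, hvl, hrel⟩ := exists_limitsM 𝓕 U ht₁ H' hC'
  -- the limit is zero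
  have hv0 : v i₀ z₀ a₀ b₀ = 0 := by
    have h1 : Tendsto (fun k => u' k i₀ z₀ a₀ b₀) U (𝓝 (v i₀ z₀ a₀ b₀)) :=
      (tendsto_pi_nhds.1 ((tendsto_pi_nhds.1
        (lim_prod (f := fun k => u' k i₀) (hvl i₀ z₀ hz₀) tendsto_const_nhds)) a₀)) b₀
    refine tendsto_nhds_unique h1 ?_
    refine hinv.zero_mul_isBoundedUnder_le (g := fun k => u k i₀ z₀ a₀ b₀) ?_
    exact ⟨C₀, by simpa using h0⟩
  have hvz := eq_zero_of_det2 (𝓕.at t₁ ht₁) hG hz₀ hv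
    (fun i j z hz w hw h => sub_eq_zero.1 (hrel i j z hz w hw h)) hv0
  -- the maximum is attained
  have hatt : ∀ᶠ k in (U : Filter ι),
      ∃ i, ∃ z ∈ closedBall (0 : Cm d) 2, ‖u' k i z‖ = 1 := by
    filter_upwards [hpos, H.fm] with k k1 k2
    obtain ⟨-, i, z, hz, hl⟩ := hm k k2
    refine ⟨i, z, hz, ?_⟩
    simp only [hu', norm_smul, hnm k k1]
    rw [hl, inv_mul_cancel₀ k1.ne']
  obtain ⟨i, hi⟩ := Ultrafilter.eventually_exists_iff.1 hatt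
  have h2 : ∀ k, ∃ z : Cm d, (∃ z ∈ closedBall (0 : Cm d) 2, ‖u' k i z‖ = 1) →
      (z ∈ closedBall (0 : Cm d) 2 ∧ ‖u' k i z‖ = 1) := fun k => by
    by_cases h : ∃ z ∈ closedBall (0 : Cm d) 2, ‖u' k i z‖ = 1
    · obtain ⟨z, hz⟩ := h
      exact ⟨z, fun _ => hz⟩
    · exact ⟨0, fun h' => absurd h' h⟩
  choose z hz using h2
  have hz2 : ∀ᶠ k in (U : Filter ι), ‖z k‖ ≤ 2 := by
    filter_upwards [hi] with k hk using by simpa using (hz k hk).1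
  obtain ⟨x₀, hx₀2, hx₀⟩ := exists_lim_of_bound U hz2
  have htT : ∀ᶠ k in (U : Filter ι), t k ∈ 𝓕.T := H.lim.eventually (𝓕.isOpen.mem_nhds ht₁)
  have h3 : ∀ k, ∃ (j : Fin 𝓕.N) (w : Cm d), t k ∈ 𝓕.T →
      (‖w‖ < 1 ∧ 𝓕.σ j (t k) w = 𝓕.σ i (t k) (z k)) := fun k => by
    by_cases h : t k ∈ 𝓕.T
    · obtain ⟨j, w, hw⟩ := cover1 (𝓕.at (t k) h) (𝓕.σ i (t k) (z k))
      exact ⟨j, w, fun _ => hw⟩
    · exact ⟨i₀, 0, fun h' => absurd h' h⟩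
  choose j' w hw using h3
  obtain ⟨j, hj⟩ := eventually_const_of_finite U j'
  have hw1 : ∀ᶠ k in (U : Filter ι), ‖w k‖ ≤ 1 := by
    filter_upwards [htT] with k hk using (hw k hk).1.le
  obtain ⟨w₀, hw₀1, hw₀⟩ := exists_lim_of_bound U hw1
  have hx₀3 : x₀ ∈ ball (0 : Cm d) 3 := by rw [mem_ball_zero_iff]; linarith
  have hw₀3 : w₀ ∈ ball (0 : Cm d) 3 := by rw [mem_ball_zero_iff]; linarith
  have hw₀2 : w₀ ∈ ball (0 : Cm d) 2 := by rw [mem_ball_zero_iff]; linarith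
  have hr1 : ∀ᶠ k in (U : Filter ι), 𝓕.σ i (t k) (z k) = 𝓕.σ j (t k) (w k) := by
    filter_upwards [htT, hj] with k k1 k2
    rw [← k2]
    exact (hw k k1).2.symm
  obtain ⟨a, -, hr0⟩ := fam_proper 𝓕 ht₁ H.lim (γ := fun _ => 1) hx₀3 hw₀3 hx₀ hw₀
    (hr1.mono fun k hk => by rw [one_smul, hk])
  rw [Subsingleton.elim a 1, one_smul] at hr0
  have h4 := H'.rel i j x₀ hx₀3 w₀ hw₀3 hr0 U le_rfl z w hx₀ hw₀ hr1
  have h5 : Tendsto (fun k => u' k j (w k)) U (𝓝 (v j w₀)) :=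
    lim_prod (f := fun k => u' k j) (hvl j w₀ hw₀2) hw₀
  have h5' : ∀ a b, Tendsto (fun k => jm (𝓕.σ i (t k)) (𝓕.σ j (t k)) (z k) a b) (U : Filter ι)
      (𝓝 (jm (𝓕.σ i t₁) (𝓕.σ j t₁) x₀ a b)) := fun a b =>
    (jm_fam 𝓕 ht₁ hx₀3 hw₀3 hr0 a b).continuousAt.tendsto.comp (H.lim.prodMk_nhds hx₀)
  have h6 := h4.add (pq_tendsto h5' h5)
  have hvj : v j w₀ = 0 := hvz j w₀ hw₀2
  rw [hvj, pq_zero, add_zero] at h6
  have h7 : Tendsto (fun k => u' k i (z k)) U (𝓝 0) := by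
    refine h6.congr fun k => ?_
    rw [sub_add_cancel]
  have h8 := h7.norm
  rw [norm_zero] at h8
  have h9 : Tendsto (fun k => ‖u' k i (z k)‖) U (𝓝 1) :=
    tendsto_const_nhds.congr' (hi.mono fun k hk => (hz k hk).2.symm)
  exact zero_ne_one (tendsto_nhds_unique h8 h9)

/-- **Convergence.** -/
theorem convM (𝓕 : Fam p d E Γ) {ι : Type} {l : Filter ι} [l.NeBot]
    {t : ι → Cm p} {t₁ : Cm p} (ht₁ : t₁ ∈ 𝓕.T) {u : ι → Fin 𝓕.N → Cm d → V2 d}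
    {B : Fin 𝓕.N → Fin 𝓕.N → Cm d → Cm d → V2 d} (H : SeqM 𝓕 l t t₁ u B)
    {i₀ : Fin 𝓕.N} {z₀ : Cm d} {a₀ b₀ : Fin d} (hz₀ : z₀ ∈ ball (0 : Cm d) 2)
    (hG : Det2 (𝓕.at t₁ ht₁) i₀ z₀ a₀ b₀)
    {c₀ : ℂ} (h0 : Tendsto (fun k => u k i₀ z₀ a₀ b₀) l (𝓝 c₀)) :
    ∃ v : Fin 𝓕.N → Cm d → V2 d, ∀ i, ∀ z ∈ ball (0 : Cm d) 2,
        Tendsto (fun q : ι × Cm d => u q.1 i q.2) (l ×ˢ 𝓝 z) (𝓝 (v i z)) := by
  have hex : ∀ U : Ultrafilter ι, (U : Filter ι) ≤ l →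
      ∃ v : Fin 𝓕.N → Cm d → V2 d, (∀ i, Fm (v i) (ball 0 2)) ∧
      (∀ i, ∀ z ∈ ball (0 : Cm d) 2,
        Tendsto (fun q : ι × Cm d => u q.1 i q.2) ((U : Filter ι) ×ˢ 𝓝 z) (𝓝 (v i z))) ∧
      ∀ i j, ∀ z ∈ ball (0 : Cm d) 2, ∀ w ∈ ball (0 : Cm d) 2,
        𝓕.σ i t₁ z = 𝓕.σ j t₁ w →
          v i z - pq (jm (𝓕.σ i t₁) (𝓕.σ j t₁) z) (v j w) = B i j z w := by
    intro U hU
    have HU := H.mono hU
    have hC₂ : ∀ᶠ k in (U : Filter ι), ‖u k i₀ z₀ a₀ b₀‖ ≤ ‖c₀‖ + 1 := by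
      filter_upwards [(h0.mono_left hU).norm.eventually
        (ge_mem_nhds (show ‖c₀‖ < ‖c₀‖ + 1 by linarith))] with k hk using hk
    obtain ⟨C, hC⟩ := bddM 𝓕 U ht₁ HU hz₀ hG hC₂
    exact exists_limitsM 𝓕 U ht₁ HU hC
  obtain ⟨v, hv, hvl, hrel⟩ := hex (Ultrafilter.of l) (Ultrafilter.of_le l)
  -- uniqueness
  have huniq : ∀ U : Ultrafilter ι, (U : Filter ι) ≤ l → ∀ i, ∀ z ∈ ball (0 : Cm d) 2,
        Tendsto (fun q : ι × Cm d => u q.1 i q.2) ((U : Filter ι) ×ˢ 𝓝 z) (𝓝 (v i z)) := by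
    intro U hU
    obtain ⟨v', hv', hvl', hrel'⟩ := hex U hU
    have hz : ∀ i, ∀ z ∈ ball (0 : Cm d) 2, v' i z - v i z = 0 := by
      refine eq_zero_of_det2 (𝓕.at t₁ ht₁) hG hz₀ (v := fun i z => v' i z - v i z)
        (fun i => (hv' i).sub isOpen_ball (hv i)) (fun i j z hz w hw h => ?_) ?_
      · have k1 := hrel i j z hz w hw h
        have k2 := hrel' i j z hz w hw h
        show v' i z - v i z = pq (jm (𝓕.σ i t₁) (𝓕.σ j t₁) z) (v' j w - v j w)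
        rw [pq_sub, ← sub_eq_zero]
        have k3 : v' i z - v i z - (pq (jm (𝓕.σ i t₁) (𝓕.σ j t₁) z) (v' j w) -
            pq (jm (𝓕.σ i t₁) (𝓕.σ j t₁) z) (v j w)) =
            (v' i z - pq (jm (𝓕.σ i t₁) (𝓕.σ j t₁) z) (v' j w)) -
            (v i z - pq (jm (𝓕.σ i t₁) (𝓕.σ j t₁) z) (v j w)) := by abel
        rw [k3, k1, k2, sub_self]
      · have k1 : Tendsto (fun k => u k i₀ z₀ a₀ b₀) U (𝓝 (v' i₀ z₀ a₀ b₀)) :=
          (tendsto_pi_nhds.1 ((tendsto_pi_nhds.1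
            (lim_prod (f := fun k => u k i₀) (hvl' i₀ z₀ hz₀) tendsto_const_nhds)) a₀)) b₀
        have k2 : Tendsto (fun k => u k i₀ z₀ a₀ b₀) (Ultrafilter.of l : Filter ι)
            (𝓝 (v i₀ z₀ a₀ b₀)) :=
          (tendsto_pi_nhds.1 ((tendsto_pi_nhds.1
            (lim_prod (f := fun k => u k i₀) (hvl i₀ z₀ hz₀) tendsto_const_nhds)) a₀)) b₀
        show v' i₀ z₀ a₀ b₀ - v i₀ z₀ a₀ b₀ = 0
        rw [tendsto_nhds_unique k1 (h0.mono_left hU),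
          tendsto_nhds_unique k2 (h0.mono_left (Ultrafilter.of_le l)), sub_self]
    intro i z hz'
    rw [← sub_eq_zero.1 (hz i z hz')]
    exact hvl' i z hz'
  refine ⟨v, fun i z hz => ?_⟩
  rw [tendsto_iff_ultrafilter]
  intro W hW
  have h1 : ((W.map Prod.fst : Ultrafilter ι) : Filter ι) ≤ l := by
    rw [Ultrafilter.coe_map]
    exact (Filter.map_mono hW).trans (by
      have := tendsto_fst (f := l) (g := 𝓝 z)
      exact this)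
  have h2 : (W : Filter (ι × Cm d)) ≤ ((W.map Prod.fst : Ultrafilter ι) : Filter ι) ×ˢ 𝓝 z := by
    rw [Filter.prod_eq_inf, le_inf_iff]
    refine ⟨?_, ?_⟩
    · rw [Ultrafilter.coe_map]
      exact le_comap_map
    · exact hW.trans (by rw [Filter.prod_eq_inf]; exact inf_le_right)
  exact (huniq _ h1 i z hz).mono_left h2

end

end Vale.Agent.P281.H594.HK
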