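import Vale.Agent.P281.H594.HK.Gr3

/-!
# P281, T-HKT (helper594): Grauert for the holomorphic 2-forms of a family, any constant `h⁰(Ω²)`

Forms on the fibre number `t` which are determined by finitely many entries.
-/

open Set Filter Metric
open scoped Topology

noncomputable section

namespace Vale.Agent.P281.H594.HK

open Vale.Agent.P281.H64.TK Vale.Agent.P281.H64.TK.TS Vale.Agent.P281.H603.K
open Vale.Agent.P281.H83.HK
open Vale.Agent.P281.H594.TS (tm tm_eq tm_of tm_nhds tm_fam jac_comp jac_id jac_congr cover1)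
open Vale.Agent.P272.K (Cm)

/-- Finitely many entries of 2-forms on sheets. -/
structure Ent (N d : ℕ) (Λ : Type) where
  I : Λ → Fin N
  z : Λ → Cm d
  a : Λ → Fin d
  b : Λ → Fin d
  mem : ∀ l, z l ∈ ball (0 : Cm d) 2

/-- The values of a form. -/
def Ent.ev {N d : ℕ} {Λ : Type} (e : Ent N d Λ) (u : Fin N → Cm d → V2 d) (l : Λ) : ℂ :=
  u (e.I l) (e.z l) (e.a l) (e.b l)

variable {p d : ℕ} {E Γ : Type} [TopologicalSpace E] [Group Γ] [MulAction Γ E] {Λ : Type}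

/-- Forms on `S` are determined by the entries `e`. -/
def DetK (S : Sheets d E Γ) (e : Ent S.N d Λ) : Prop :=
  ∀ s, Hol2 S s → (∀ l, e.ev s l = 0) → ∀ i, ∀ z ∈ ball (0 : Cm d) 3, s i z = 0

section
variable [Subsingleton Γ]

theorem eq_zero_of_detK (S : Sheets d E Γ) {e : Ent S.N d Λ} (hG : DetK S e)
    {v : Fin S.N → Cm d → V2 d} (hv : ∀ i, Fm (v i) (ball 0 2)) (hr : Rel2 S 2 v)
    (h0 : ∀ l, e.ev v l = 0) : ∀ i, ∀ z ∈ ball (0 : Cm d) 2, v i z = 0 := by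
  obtain ⟨s, h1, h2⟩ := glue2 S hv hr
  intro i z hz
  rw [← h2 i z hz]
  refine hG s h1 (fun l => ?_) i z (ball_subset_ball (by norm_num) hz)
  have h3 : s (e.I l) (e.z l) = v (e.I l) (e.z l) := h2 (e.I l) (e.z l) (e.mem l)
  have h4 := h0 l
  unfold Ent.ev at h4 ⊢
  rw [h3, h4]

variable [T2Space E] [ContinuousConstSMul Γ E]

theorem ev_lim {N : ℕ} {ι : Type} {l' : Filter ι} {f : ι → Fin N → Cm d → V2 d}
    {v : Fin N → Cm d → V2 d} (e : Ent N d Λ)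
    (h : ∀ i, ∀ z ∈ ball (0 : Cm d) 2,
      Tendsto (fun q : ι × Cm d => f q.1 i q.2) (l' ×ˢ 𝓝 z) (𝓝 (v i z))) (l : Λ) :
    Tendsto (fun k => e.ev (f k) l) l' (𝓝 (e.ev v l)) :=
  (tendsto_pi_nhds.1 ((tendsto_pi_nhds.1
    (lim_prod (f := fun k => f k (e.I l)) (h (e.I l) (e.z l) (e.mem l)) tendsto_const_nhds))
      (e.a l))) (e.b l)

/-- **Boundedness.** -/
theorem bddK (𝓕 : Fam p d E Γ) {ι : Type} (U : Ultrafilter ι)
    {t : ι → Cm p} {t₁ : Cm p} (ht₁ : t₁ ∈ 𝓕.T) {u : ι → Fin 𝓕.N → Cm d → V2 d}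
    {B : Fin 𝓕.N → Fin 𝓕.N → Cm d → Cm d → V2 d} (H : SeqM 𝓕 (U : Filter ι) t t₁ u B)
    (i₀ : Fin 𝓕.N) {e : Ent 𝓕.N d Λ} (hG : DetK (𝓕.at t₁ ht₁) e)
    {C₀ : Λ → ℝ} (h0 : ∀ l, ∀ᶠ k in (U : Filter ι), ‖e.ev (u k) l‖ ≤ C₀ l) :
    ∃ C : ℝ, ∀ᶠ k in (U : Filter ι), ∀ i, ∀ z ∈ closedBall (0 : Cm d) 2, ‖u k i z‖ ≤ C := by
  classical
  -- the maximum
  have hex : ∀ k, ∃ m : ℝ, (∀ i, Fm (u k i) (ball 0 3)) →
      (∀ i, ∀ z ∈ closedBall (0 : Cm d) 2, ‖u k i z‖ ≤ m) ∧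
      ∃ i, ∃ z ∈ closedBall (0 : Cm d) 2, ‖u k i z‖ = m := by
    intro k
    by_cases hk : ∀ i, Fm (u k i) (ball 0 3)
    · obtain ⟨m, hm⟩ := max_exists2 i₀ (u := u k)
        (fun i => ((hk i).hol.mono (closedBall_subset_ball (by norm_num))).continuousOn)
      exact ⟨m, fun _ => hm⟩
    · exact ⟨0, fun h => absurd h hk⟩
  choose m hm using hex
  by_contra hcon
  rw [not_exists] at hcon
  have hbig : ∀ C : ℝ, ∀ᶠ k in (U : Filter ι), C < m k := by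
    intro C
    have h1 := hcon C
    by_contra h2
    rw [← Ultrafilter.frequently_iff_eventually] at h2
    rw [not_frequently] at h2
    refine h1 ?_
    filter_upwards [h2, H.fm] with k k1 k2
    obtain ⟨k3, -⟩ := hm k k2
    push Not at k1
    exact fun i z hz => (k3 i z hz).trans k1
  have hminf : Tendsto m U atTop := tendsto_atTop.2 fun C => (hbig C).mono fun k hk => hk.le
  have hinv : Tendsto (fun k => ((m k : ℂ))⁻¹) U (𝓝 0) := by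
    have h1 : Tendsto (fun k => (m k)⁻¹) U (𝓝 0) := tendsto_inv_atTop_zero.comp hminf
    have h2 := (Complex.continuous_ofReal.tendsto 0).comp h1
    simpa [Function.comp_def] using h2
  -- the normalised data
  set u' : ι → Fin 𝓕.N → Cm d → V2 d := fun k i z => (m k : ℂ)⁻¹ • u k i z with hu'
  have H' : SeqM 𝓕 (U : Filter ι) t t₁ u' (fun _ _ _ _ => 0) := by
    refine ⟨H.lim, ?_, ?_⟩
    · filter_upwards [H.fm] with k hk i using (hk i).smul _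
    · intro i j z hz w hw hγ V hV z' w' hz' hw' hr
      have h1 := H.rel i j z hz w hw hγ V hV z' w' hz' hw' hr
      have h2 := (hinv.mono_left hV).smul h1
      rw [zero_smul] at h2
      refine h2.congr fun k => ?_
      simp only [hu']
      rw [smul_sub, pq_smul]
  have hpos : ∀ᶠ k in (U : Filter ι), 0 < m k := hbig 0
  have hnm : ∀ k, 0 < m k → ‖(m k : ℂ)⁻¹‖ = (m k)⁻¹ := fun k k1 => by
    rw [norm_inv, Complex.norm_real, Real.norm_of_nonneg k1.le]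
  have hC' : ∀ᶠ k in (U : Filter ι), ∀ i, ∀ z ∈ closedBall (0 : Cm d) 2, ‖u' k i z‖ ≤ 1 := by
    filter_upwards [hpos, H.fm] with k k1 k2
    obtain ⟨k3, -⟩ := hm k k2
    intro i z hz
    simp only [hu', norm_smul, hnm k k1]
    rw [inv_mul_le_iff₀ k1, mul_one]
    exact k3 i z hz
  obtain ⟨v, hv, hvl, hrel⟩ := exists_limitsM 𝓕 U ht₁ H' hC'
  -- the limit is zero
  have hv0 : ∀ l, e.ev v l = 0 := by
    intro l
    have h1 := ev_lim e hvl l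
    refine tendsto_nhds_unique h1 ?_
    have h2 : ∀ k, e.ev (u' k) l = (m k : ℂ)⁻¹ * e.ev (u k) l := fun k => rfl
    simp only [h2]
    refine hinv.zero_mul_isBoundedUnder_le (g := fun k => e.ev (u k) l) ?_
    exact ⟨C₀ l, by simpa using h0 l⟩
  have hvz := eq_zero_of_detK (𝓕.at t₁ ht₁) hG hv
    (fun i j z hz w hw h => sub_eq_zero.1 (hrel i j z hz w hw h)) hv0
  -- the maximum is attained
  have hatt : ∀ᶠ k in (U : Filter ι),
      ∃ i, ∃ z ∈ closedBall (0 : Cm d) 2, ‖u' k i z‖ = 1 := by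
    filter_upwards [hpos, H.fm] with k k1 k2
    obtain ⟨-, i, z, hz, hl⟩ := hm k k2
    refine ⟨i, z, hz, ?_⟩
    simp only [hu', norm_smul, hnm k k1]
    rw [hl, inv_mul_cancel₀ k1.ne']
  obtain ⟨i, hi⟩ := Ultrafilter.eventually_exists_iff.1 hatt
  have h2 : ∀ k, ∃ z : Cm d, (∃ z ∈ closedBall (0 : Cm d) 2, ‖u' k i z‖ = 1) →
      (z ∈ closedBall (0 : Cm d) 2 ∧ ‖u' k i z‖ = 1) := fun k => by
    by_cases h : ∃ z ∈ closedBall (0 : Cm d) 2, ‖u' k i z‖ = 1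
    · obtain ⟨z, hz⟩ := h
      exact ⟨z, fun _ => hz⟩
    · exact ⟨0, fun h' => absurd h' h⟩
  choose z hz using h2
  have hz2 : ∀ᶠ k in (U : Filter ι), ‖z k‖ ≤ 2 := by
    filter_upwards [hi] with k hk using by simpa using (hz k hk).1
  obtain ⟨x₀, hx₀2, hx₀⟩ := exists_lim_of_bound U hz2
  have htT : ∀ᶠ k in (U : Filter ι), t k ∈ 𝓕.T := H.lim.eventually (𝓕.isOpen.mem_nhds ht₁)
  have h3 : ∀ k, ∃ (j : Fin 𝓕.N) (w : Cm d), t k ∈ 𝓕.T →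
      (‖w‖ < 1 ∧ 𝓕.σ j (t k) w = 𝓕.σ i (t k) (z k)) := fun k => by
    by_cases h : t k ∈ 𝓕.T
    · obtain ⟨j, w, hw⟩ := cover1 (𝓕.at (t k) h) (𝓕.σ i (t k) (z k))
      exact ⟨j, w, fun _ => hw⟩
    · exact ⟨i₀, 0, fun h' => absurd h' h⟩
  choose j' w hw using h3
  obtain ⟨j, hj⟩ := eventually_const_of_finite U j'
  have hw1 : ∀ᶠ k in (U : Filter ι), ‖w k‖ ≤ 1 := by
    filter_upwards [htT] with k hk using (hw k hk).1.le
  obtain ⟨w₀, hw₀1, hw₀⟩ := exists_lim_of_bound U hw1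
  have hx₀3 : x₀ ∈ ball (0 : Cm d) 3 := by rw [mem_ball_zero_iff]; linarith
  have hw₀3 : w₀ ∈ ball (0 : Cm d) 3 := by rw [mem_ball_zero_iff]; linarith
  have hw₀2 : w₀ ∈ ball (0 : Cm d) 2 := by rw [mem_ball_zero_iff]; linarith
  have hr1 : ∀ᶠ k in (U : Filter ι), 𝓕.σ i (t k) (z k) = 𝓕.σ j (t k) (w k) := by
    filter_upwards [htT, hj] with k k1 k2
    rw [← k2]
    exact (hw k k1).2.symm
  obtain ⟨a, -, hr0⟩ := fam_proper 𝓕 ht₁ H.lim (γ := fun _ => 1) hx₀3 hw₀3 hx₀ hw₀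
    (hr1.mono fun k hk => by rw [one_smul, hk])
  rw [Subsingleton.elim a 1, one_smul] at hr0
  have h4 := H'.rel i j x₀ hx₀3 w₀ hw₀3 hr0 U le_rfl z w hx₀ hw₀ hr1
  have h5 : Tendsto (fun k => u' k j (w k)) U (𝓝 (v j w₀)) :=
    lim_prod (f := fun k => u' k j) (hvl j w₀ hw₀2) hw₀
  have h5' : ∀ a b, Tendsto (fun k => jm (𝓕.σ i (t k)) (𝓕.σ j (t k)) (z k) a b) (U : Filter ι)
      (𝓝 (jm (𝓕.σ i t₁) (𝓕.σ j t₁) x₀ a b)) := fun a b =>
    (jm_fam 𝓕 ht₁ hx₀3 hw₀3 hr0 a b).continuousAt.tendsto.comp (H.lim.prodMk_nhds hx₀)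
  have h6 := h4.add (pq_tendsto h5' h5)
  have hvj : v j w₀ = 0 := hvz j w₀ hw₀2
  rw [hvj, pq_zero, add_zero] at h6
  have h7 : Tendsto (fun k => u' k i (z k)) U (𝓝 0) := by
    refine h6.congr fun k => ?_
    rw [sub_add_cancel]
  have h8 := h7.norm
  rw [norm_zero] at h8
  have h9 : Tendsto (fun k => ‖u' k i (z k)‖) U (𝓝 1) :=
    tendsto_const_nhds.congr' (hi.mono fun k hk => (hz k hk).2.symm)
  exact zero_ne_one (tendsto_nhds_unique h8 h9)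

/-- **Convergence.** -/
theorem convK (𝓕 : Fam p d E Γ) {ι : Type} {l' : Filter ι} [l'.NeBot]
    {t : ι → Cm p} {t₁ : Cm p} (ht₁ : t₁ ∈ 𝓕.T) {u : ι → Fin 𝓕.N → Cm d → V2 d}
    {B : Fin 𝓕.N → Fin 𝓕.N → Cm d → Cm d → V2 d} (H : SeqM 𝓕 l' t t₁ u B)
    (i₀ : Fin 𝓕.N) {e : Ent 𝓕.N d Λ} (hG : DetK (𝓕.at t₁ ht₁) e)
    {c₀ : Λ → ℂ} (h0 : ∀ l, Tendsto (fun k => e.ev (u k) l) l' (𝓝 (c₀ l))) :
    ∃ v : Fin 𝓕.N → Cm d → V2 d, ∀ i, ∀ z ∈ ball (0 : Cm d) 2,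
        Tendsto (fun q : ι × Cm d => u q.1 i q.2) (l' ×ˢ 𝓝 z) (𝓝 (v i z)) := by
  have hex : ∀ U : Ultrafilter ι, (U : Filter ι) ≤ l' →
      ∃ v : Fin 𝓕.N → Cm d → V2 d, (∀ i, Fm (v i) (ball 0 2)) ∧
      (∀ i, ∀ z ∈ ball (0 : Cm d) 2,
        Tendsto (fun q : ι × Cm d => u q.1 i q.2) ((U : Filter ι) ×ˢ 𝓝 z) (𝓝 (v i z))) ∧
      ∀ i j, ∀ z ∈ ball (0 : Cm d) 2, ∀ w ∈ ball (0 : Cm d) 2,
        𝓕.σ i t₁ z = 𝓕.σ j t₁ w →
          v i z - pq (jm (𝓕.σ i t₁) (𝓕.σ j t₁) z) (v j w) = B i j z w := by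
    intro U hU
    have HU := H.mono hU
    have hC₂ : ∀ l, ∀ᶠ k in (U : Filter ι), ‖e.ev (u k) l‖ ≤ ‖c₀ l‖ + 1 := by
      intro l
      filter_upwards [((h0 l).mono_left hU).norm.eventually
        (ge_mem_nhds (show ‖c₀ l‖ < ‖c₀ l‖ + 1 by linarith))] with k hk using hk
    obtain ⟨C, hC⟩ := bddK 𝓕 U ht₁ HU i₀ hG hC₂
    exact exists_limitsM 𝓕 U ht₁ HU hC
  obtain ⟨v, hv, hvl, hrel⟩ := hex (Ultrafilter.of l') (Ultrafilter.of_le l')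
  -- uniqueness
  have huniq : ∀ U : Ultrafilter ι, (U : Filter ι) ≤ l' → ∀ i, ∀ z ∈ ball (0 : Cm d) 2,
        Tendsto (fun q : ι × Cm d => u q.1 i q.2) ((U : Filter ι) ×ˢ 𝓝 z) (𝓝 (v i z)) := by
    intro U hU
    obtain ⟨v', hv', hvl', hrel'⟩ := hex U hU
    have hz : ∀ i, ∀ z ∈ ball (0 : Cm d) 2, v' i z - v i z = 0 := by
      refine eq_zero_of_detK (𝓕.at t₁ ht₁) hG (v := fun i z => v' i z - v i z)
        (fun i => (hv' i).sub isOpen_ball (hv i)) (fun i j z hz w hw h => ?_) (fun l => ?_)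
      · have k1 := hrel i j z hz w hw h
        have k2 := hrel' i j z hz w hw h
        show v' i z - v i z = pq (jm (𝓕.σ i t₁) (𝓕.σ j t₁) z) (v' j w - v j w)
        rw [pq_sub, ← sub_eq_zero]
        have k3 : v' i z - v i z - (pq (jm (𝓕.σ i t₁) (𝓕.σ j t₁) z) (v' j w) -
            pq (jm (𝓕.σ i t₁) (𝓕.σ j t₁) z) (v j w)) =
            (v' i z - pq (jm (𝓕.σ i t₁) (𝓕.σ j t₁) z) (v' j w)) -
            (v i z - pq (jm (𝓕.σ i t₁) (𝓕.σ j t₁) z) (v j w)) := by abel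
        rw [k3, k1, k2, sub_self]
      · have k1 := ev_lim e hvl' l
        have k2 := ev_lim e hvl l
        show e.ev v' l - e.ev v l = 0
        rw [tendsto_nhds_unique k1 ((h0 l).mono_left hU),
          tendsto_nhds_unique k2 ((h0 l).mono_left (Ultrafilter.of_le l')), sub_self]
    intro i z hz'
    rw [← sub_eq_zero.1 (hz i z hz')]
    exact hvl' i z hz'
  refine ⟨v, fun i z hz => ?_⟩
  rw [tendsto_iff_ultrafilter]
  intro W hW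
  have h1 : ((W.map Prod.fst : Ultrafilter ι) : Filter ι) ≤ l' := by
    rw [Ultrafilter.coe_map]
    exact (Filter.map_mono hW).trans (by
      have := tendsto_fst (f := l') (g := 𝓝 z)
      exact this)
  have h2 : (W : Filter (ι × Cm d)) ≤ ((W.map Prod.fst : Ultrafilter ι) : Filter ι) ×ˢ 𝓝 z := by
    rw [Filter.prod_eq_inf, le_inf_iff]
    refine ⟨?_, ?_⟩
    · rw [Ultrafilter.coe_map]
      exact le_comap_map
    · exact hW.trans (by rw [Filter.prod_eq_inf]; exact inf_le_right)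
  exact (huniq _ h1 i z hz).mono_left h2

variable {𝓕 : Fam p d E Γ} {T' : Set (Cm p)} {u : Cm p → Fin 𝓕.N → Cm d → V2 d}

theorem DatM.continuousAtK (D : DatM 𝓕 T' u) (i₀ : Fin 𝓕.N) {e : Ent 𝓕.N d Λ}
    (hG : ∀ t (ht : t ∈ T'), DetK (𝓕.at t (D.sub ht)) e)
    {c₀ : Λ → ℂ} (h0 : ∀ t ∈ T', ∀ l, e.ev (u t) l = c₀ l) {t₁ : Cm p} (ht₁ : t₁ ∈ T') :
    ∀ i, ∀ z ∈ ball (0 : Cm d) 2,
      ContinuousAt (fun x : Cm p × Cm d => u x.1 i x.2) (t₁, z) := by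
  have hT : ∀ᶠ t in 𝓝 t₁, t ∈ T' := D.isOpen.mem_nhds ht₁
  obtain ⟨v, h2⟩ := convK 𝓕 (D.sub ht₁) (D.seq ht₁) i₀ (hG t₁ ht₁)
    (c₀ := c₀) (fun l => tendsto_const_nhds.congr' (hT.mono fun t ht => (h0 t ht l).symm))
  intro i z hz
  have h4 := h2 i z hz
  rw [← nhds_prod_eq] at h4
  exact continuousAt_of_tendsto_nhds h4

theorem DatM.differentiableAtK (D : DatM 𝓕 T' u) (i₀ : Fin 𝓕.N) {e : Ent 𝓕.N d Λ}
    (hG : ∀ t (ht : t ∈ T'), DetK (𝓕.at t (D.sub ht)) e)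
    {c₀ : Λ → ℂ} (h0 : ∀ t ∈ T', ∀ l, e.ev (u t) l = c₀ l) {t₁ : Cm p} (ht₁ : t₁ ∈ T')
    (x : Cm p) : ∀ i, ∀ z ∈ ball (0 : Cm d) 2,
      DifferentiableAt ℂ (fun s : ℂ => u (t₁ + s • x) i z) 0 := by
  obtain ⟨B, hB⟩ := D.exists_seq ht₁ x
  have hT : ∀ᶠ s : ℂ in 𝓝[≠] (0 : ℂ), t₁ + s • x ∈ T' :=
    hB.lim.eventually (D.isOpen.mem_nhds ht₁)
  obtain ⟨v, h2⟩ := convK 𝓕 (D.sub ht₁) hB i₀ (hG t₁ ht₁)
    (c₀ := fun _ => 0) (fun l => tendsto_const_nhds.congr' (hT.mono fun s hs => by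
      show (0 : ℂ) = s⁻¹ * (e.ev (u (t₁ + s • x)) l - e.ev (u t₁) l)
      rw [h0 _ hs, h0 t₁ ht₁]; ring))
  intro i z hz
  have h4 : Tendsto (fun s : ℂ => s⁻¹ • (u (t₁ + s • x) i z - u t₁ i z)) (𝓝[≠] 0)
      (𝓝 (v i z)) :=
    lim_prod (f := fun s z => s⁻¹ • (u (t₁ + s • x) i z - u t₁ i z)) (h2 i z hz)
      tendsto_const_nhds
  have h5 : HasDerivAt (fun s : ℂ => u (t₁ + s • x) i z) (v i z) 0 := by
    rw [hasDerivAt_iff_tendsto_slope_zero]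
    simpa using h4
  exact h5.differentiableAt

/-- **Analyticity in the parameter.** -/
theorem DatM.analyticK (D : DatM 𝓕 T' u) (i₀ : Fin 𝓕.N) {e : Ent 𝓕.N d Λ}
    (hG : ∀ t (ht : t ∈ T'), DetK (𝓕.at t (D.sub ht)) e)
    {c₀ : Λ → ℂ} (h0 : ∀ t ∈ T', ∀ l, e.ev (u t) l = c₀ l) :
    ∀ i, ∀ t ∈ T', ∀ z ∈ ball (0 : Cm d) 3,
      AnalyticAt ℂ (fun x : Cm p × Cm d => u x.1 i x.2) (t, z) := by
  have hcont := fun t (ht : t ∈ T') => D.continuousAtK i₀ hG h0 ht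
  have hdiff := fun t (ht : t ∈ T') => D.differentiableAtK i₀ hG h0 ht
  have h2 : ∀ i, ∀ t ∈ T', ∀ z ∈ ball (0 : Cm d) 2,
      AnalyticAt ℂ (fun x : Cm p × Cm d => u x.1 i x.2) (t, z) := by
    intro i t ht z hz
    rw [an_iff]
    intro a b
    have h3 : DifferentiableOn ℂ (fun x : Cm p × Cm d => u x.1 i x.2 a b)
        (T' ×ˢ ball (0 : Cm d) 2) := by
      refine osgood_dir ((Pi.basisFun ℂ (Fin p)).prod (Pi.basisFun ℂ (Fin d)))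
        (D.isOpen.prod isOpen_ball) ?_ ?_
      · rintro ⟨t, z⟩ ⟨ht, hz⟩
        exact (continuousAt_pi.1 ((continuousAt_pi.1 (hcont t ht i z hz)) a)) b
      · rintro ⟨t, z⟩ ⟨ht, hz⟩ (k | k)
        · have h4 := diffAt_iff.1 ((hdiff t ht (Pi.basisFun ℂ (Fin p) k)) i z hz) a b
          simpa using h4
        · have h4 : DifferentiableAt ℂ (fun z => u t i z a b) z :=
            (diff_iff.1 (D.fm t ht i).hol a b).differentiableAt
              (isOpen_ball.mem_nhds (ball_subset_ball (by norm_num) hz))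
          have h5 : DifferentiableAt ℂ (fun s : ℂ => z + s • (Pi.single k 1 : Cm d)) 0 := by
            fun_prop
          have h6 : DifferentiableAt ℂ (fun z => u t i z a b)
              ((fun s : ℂ => z + s • (Pi.single k 1 : Cm d)) 0) := by
            simpa using h4
          have h7 := DifferentiableAt.comp (0 : ℂ) h6 h5
          simpa [Function.comp_def] using h7
    exact MF.analyticAt_of_differentiableOn (D.isOpen.prod isOpen_ball) h3 ⟨ht, hz⟩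
  intro i t ht z hz
  obtain ⟨j, w, hw, he⟩ := cover1 (𝓕.at t (D.sub ht)) (𝓕.σ i t z)
  have hw3 : w ∈ ball (0 : Cm d) 3 := by rw [mem_ball_zero_iff]; linarith
  have hw2 : w ∈ ball (0 : Cm d) 2 := by rw [mem_ball_zero_iff]; linarith
  obtain ⟨k1, -, k2, k3⟩ := tm_fam 𝓕 (D.sub ht) (i := i) (j := j) hz hw3 he.symm
  have k1' := jm_fam 𝓕 (D.sub ht) (i := i) (j := j) hz hw3 he.symm
  have hT : ∀ᶠ x : Cm p × Cm d in 𝓝 (t, z), x.1 ∈ T' :=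
    (continuous_fst.tendsto (t, z)).eventually (D.isOpen.mem_nhds ht)
  have h3 : (fun x : Cm p × Cm d => u x.1 i x.2) =ᶠ[𝓝 (t, z)]
      fun x => pq (jm (𝓕.σ i x.1) (𝓕.σ j x.1) x.2)
        (u x.1 j (tm (𝓕.σ i x.1) (𝓕.σ j x.1) x.2)) := by
    filter_upwards [hT, k3] with x k4 k5
    exact D.rel x.1 k4 i j _ k5.2.1 _ k5.2.2.1 k5.2.2.2
  refine AnalyticAt.congr ?_ h3.symm
  have h4 : AnalyticAt ℂ (fun x : Cm p × Cm d => (x.1, tm (𝓕.σ i x.1) (𝓕.σ j x.1) x.2)) (t, z) :=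
    analyticAt_fst.prod k1
  have h5 : AnalyticAt ℂ (fun x : Cm p × Cm d => u x.1 j (tm (𝓕.σ i x.1) (𝓕.σ j x.1) x.2))
      (t, z) := by
    have h6 : AnalyticAt ℂ (fun x : Cm p × Cm d => u x.1 j x.2)
        (t, tm (𝓕.σ i t) (𝓕.σ j t) z) := by
      rw [k2]
      exact h2 j t ht w hw2
    exact AnalyticAt.comp (g := fun x : Cm p × Cm d => u x.1 j x.2)
      (f := fun x : Cm p × Cm d => (x.1, tm (𝓕.σ i x.1) (𝓕.σ j x.1) x.2)) h6 h4
  exact pq_an k1' h5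

/-- Determination by the entries `e` is an open condition. -/
theorem detK_open (𝓕 : Fam p d E Γ) (i₀ : Fin 𝓕.N) {e : Ent 𝓕.N d Λ}
    {t₁ : Cm p} (ht₁ : t₁ ∈ 𝓕.T) (hG : DetK (𝓕.at t₁ ht₁) e) :
    ∀ᶠ t in 𝓝 t₁, ∀ ht : t ∈ 𝓕.T, DetK (𝓕.at t ht) e := by
  by_contra hcon
  set A : Set (Cm p) := {t | ∃ ht : t ∈ 𝓕.T, ∃ s : Fin 𝓕.N → Cm d → V2 d, Hol2 (𝓕.at t ht) s ∧
    (∀ l, e.ev s l = 0) ∧ ∃ i, ∃ z ∈ ball (0 : Cm d) 3, s i z ≠ 0} with hA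
  have hfr : ∃ᶠ t in 𝓝 t₁, t ∈ A := by
    rw [Filter.Frequently]
    intro h
    refine hcon ?_
    filter_upwards [h] with t k2 ht s hs hs0 i z hz
    by_contra k3
    exact k2 ⟨ht, s, hs, hs0, i, z, hz, k3⟩
  -- `t₁` is not in `A`
  have htA : t₁ ∉ A := by
    rintro ⟨ht, s, hs, hs0, i, z, hz, hne⟩
    exact hne (hG s hs hs0 i z hz)
  set l' : Filter (Cm p) := 𝓝 t₁ ⊓ 𝓟 A with hl
  have hlne : l'.NeBot := frequently_mem_iff_neBot.1 hfr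
  have hlA : ∀ᶠ t in l', t ∈ A := mem_inf_of_right (mem_principal_self A)
  -- the forms, scaled to be large
  have hex : ∀ t, ∃ u : Fin 𝓕.N → Cm d → V2 d, t ∈ A →
      ∃ ht : t ∈ 𝓕.T, Hol2 (𝓕.at t ht) u ∧ (∀ l, e.ev u l = 0) ∧
        ∃ i, ∃ z ∈ closedBall (0 : Cm d) 2, ‖u i z‖ = ‖t - t₁‖⁻¹ := by
    intro t
    by_cases htA' : t ∈ A
    swap
    · exact ⟨fun _ _ => 0, fun h => absurd h htA'⟩
    obtain ⟨ht, s, hs, hs0, i, z, hz, hne⟩ := htA'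
    obtain ⟨j, w, hw, he⟩ := cover1 (𝓕.at t ht) (𝓕.σ i t z)
    have hw3 : w ∈ ball (0 : Cm d) 3 := Sh.mem3 hw
    have h2 : s j w ≠ 0 := by
      intro h0
      have h3 := Hol2.rel hs i j z hz w hw3 he.symm
      have h4 : s i z = pq (jm (𝓕.σ i t) (𝓕.σ j t) z) (s j w) := h3
      rw [h0, pq_zero] at h4
      exact hne h4
    have h5 : 0 < ‖s j w‖ := norm_pos_iff.2 h2
    refine ⟨fun k x => (((‖t - t₁‖⁻¹ * ‖s j w‖⁻¹ : ℝ)) : ℂ) • s k x, fun _ =>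
      ⟨ht, hol2_of (fun k => (Hol2.fm hs k).smul _) fun k k' x hx x' hx' h => ?_, fun l => ?_,
      j, w, ?_, ?_⟩⟩
    · have h3 : s k x = pq (jm ((𝓕.at t ht).σ k) ((𝓕.at t ht).σ k') x) (s k' x') :=
        Hol2.rel hs k k' x hx x' hx' h
      rw [pq_smul, ← h3]
    · show (((‖t - t₁‖⁻¹ * ‖s j w‖⁻¹ : ℝ)) : ℂ) * e.ev s l = 0
      rw [hs0, mul_zero]
    · rw [mem_closedBall_zero_iff]
      linarith
    · beta_reduce
      rw [norm_smul, Complex.norm_real, Real.norm_of_nonneg (by positivity), mul_assoc,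
        inv_mul_cancel₀ h5.ne', mul_one]
  choose u hu using hex
  set U : Ultrafilter (Cm p) := Ultrafilter.of l' with hUdef
  have hU : (U : Filter (Cm p)) ≤ l' := Ultrafilter.of_le l'
  have hUt : (U : Filter (Cm p)) ≤ 𝓝 t₁ := hU.trans inf_le_left
  have hUA : ∀ᶠ t in (U : Filter (Cm p)), t ∈ A := hU hlA
  have hgood : ∀ᶠ t in (U : Filter (Cm p)), ∃ ht : t ∈ 𝓕.T, Hol2 (𝓕.at t ht) (u t) ∧
      (∀ l, e.ev (u t) l = 0) ∧
      (∃ i, ∃ z ∈ closedBall (0 : Cm d) 2, ‖u t i z‖ = ‖t - t₁‖⁻¹) := by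
    filter_upwards [hUA] with t ht
    exact hu t ht
  have Hs : SeqM 𝓕 (U : Filter (Cm p)) id t₁ u (fun _ _ _ _ => 0) := by
    refine ⟨hUt, ?_, ?_⟩
    · filter_upwards [hgood] with t ht using Hol2.fm ht.2.1
    · intro i j z hz w hw hγ V hV z' w' hz' hw' hr
      have h2 : ∀ᶠ t in (V : Filter (Cm p)), z' t ∈ ball (0 : Cm d) 3 :=
        hz'.eventually (isOpen_ball.mem_nhds hz)
      have h3 : ∀ᶠ t in (V : Filter (Cm p)), w' t ∈ ball (0 : Cm d) 3 :=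
        hw'.eventually (isOpen_ball.mem_nhds hw)
      refine tendsto_const_nhds.congr' ?_
      filter_upwards [hV hgood, h2, h3, hr] with t k1 k2 k3 k4
      simp only [id] at k4 ⊢
      have k6 : u t i (z' t) = pq (jm (𝓕.σ i t) (𝓕.σ j t) (z' t)) (u t j (w' t)) :=
        Hol2.rel k1.2.1 i j _ k2 _ k3 k4
      rw [k6, sub_self]
  obtain ⟨C, hC⟩ := bddK 𝓕 U ht₁ Hs i₀ hG (C₀ := fun _ => 0) (fun l => by
    filter_upwards [hgood] with t ht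
    rw [ht.2.2.1 l, norm_zero])
  have hbig : ∀ᶠ t in (U : Filter (Cm p)), ‖t - t₁‖ * (|C| + 1) < 1 := by
    have h4 : Tendsto (fun t : Cm p => ‖t - t₁‖ * (|C| + 1)) (𝓝 t₁) (𝓝 (‖t₁ - t₁‖ * (|C| + 1))) :=
      (by fun_prop : Continuous fun t : Cm p => ‖t - t₁‖ * (|C| + 1)).tendsto t₁
    rw [sub_self, norm_zero, zero_mul] at h4
    exact hUt (h4.eventually (gt_mem_nhds one_pos))
  obtain ⟨t, ⟨h4, h5⟩, h6, h7⟩ := ((hC.and hbig).and (hgood.and hUA)).exists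
  obtain ⟨-, -, -, i, z, hz, h8⟩ := h6
  have h9 := h4 i z hz
  rw [h8] at h9
  have h10 : 0 < ‖t - t₁‖ := norm_pos_iff.2 (sub_ne_zero.2 fun h => htA (h ▸ h7))
  have h11 : 1 ≤ C * ‖t - t₁‖ := by
    rw [← div_le_iff₀ h10, one_div]
    exact h9
  have h12 : C ≤ |C| := le_abs_self C
  nlinarith

end

end Vale.Agent.P281.H594.HK
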