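import Vale.Agent.P281.H594.HK.GrK1

/-!
# P281, T-HKT (helper594): Grauert for the holomorphic 2-forms of a family, any constant `h⁰(Ω²)`

`grauertK`: bases depend holomorphically on the parameter; `grauertU`: a given independent family
`v`, to which one form is missing.
-/

open Set Filter Metric
open scoped Topology

noncomputable section

namespace Vale.Agent.P281.H594.HK

open Vale.Agent.P281.H64.TK Vale.Agent.P281.H64.TK.TS Vale.Agent.P281.H603.K
open Vale.Agent.P281.H83.HK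
open Vale.Agent.P281.H594.TS (tm tm_eq tm_of tm_nhds tm_fam jac_comp jac_id jac_congr cover1)
open Vale.Agent.P272.K (Cm)

variable {p d : ℕ} {E Γ : Type} [TopologicalSpace E] [Group Γ] [MulAction Γ E]

theorem pq_sum {κ : Type} (t : Finset κ) (c : κ → ℂ) (J : Matrix (Fin d) (Fin d) ℂ)
    (s : κ → V2 d) : pq J (∑ k ∈ t, c k • s k) = ∑ k ∈ t, c k • pq J (s k) := by
  classical
  induction t using Finset.induction_on with
  | empty => simp [pq_zero]
  | insert a t ha ih =>
    rw [Finset.sum_insert ha, Finset.sum_insert ha, ← ih, ← pq_smul]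
    have h1 : ∀ x y : V2 d, pq J (x + y) = pq J x + pq J y := by
      intro x y
      have h2 : x + y = x - (-1 : ℂ) • y := by
        rw [neg_one_smul, sub_neg_eq_add]
      rw [h2, pq_sub, pq_smul (-1), neg_one_smul, sub_neg_eq_add]
    exact h1 _ _

theorem Fm.zero {R : Set (Cm d)} : Fm (fun _ : Cm d => (0 : V2 d)) R where
  hol := differentiableOn_const _
  alt z _ a b := by simp
  cl z _ j k l := by
    unfold dd
    simp

theorem Fm.add {f g : Cm d → V2 d} {R : Set (Cm d)} (hR : IsOpen R) (h : Fm f R)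
    (hg : Fm g R) : Fm (fun z => f z + g z) R := by
  have h1 := h.sub hR (hg.smul (-1))
  have h2 : (fun z => f z - (-1 : ℂ) • g z) = fun z => f z + g z := by
    funext z
    rw [neg_one_smul, sub_neg_eq_add]
  rwa [h2] at h1

theorem Fm.sum {κ : Type} {R : Set (Cm d)} (hR : IsOpen R) (t : Finset κ) {f : κ → Cm d → V2 d}
    (h : ∀ k, Fm (f k) R) : Fm (fun z => ∑ k ∈ t, f k z) R := by
  classical
  induction t using Finset.induction_on with
  | empty => simpa using Fm.zero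
  | insert a t ha ih =>
    have h1 := (h a).add hR ih
    refine ⟨?_, fun z hz => ?_, fun z hz => ?_⟩
    · simpa [Finset.sum_insert ha] using h1.hol
    · simpa [Finset.sum_insert ha] using h1.alt z hz
    · simpa [Finset.sum_insert ha] using h1.cl z hz

/-- Linear combinations. -/
def lin {N : ℕ} {κ : Type} [Fintype κ] (b : κ → Fin N → Cm d → V2 d) (c : κ → ℂ) :
    Fin N → Cm d → V2 d := fun i z => ∑ k, c k • b k i z

theorem hol2_lin (S : Sheets d E Γ) {κ : Type} [Fintype κ] {b : κ → Fin S.N → Cm d → V2 d}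
    (hb : ∀ k, Hol2 S (b k)) (c : κ → ℂ) : Hol2 S (lin b c) := by
  refine hol2_of (fun i => Fm.sum isOpen_ball _ fun k => (Hol2.fm (hb k) i).smul (c k)) ?_
  intro i j z hz w hw h
  show (∑ k, c k • b k i z : V2 d) = pq (jm (S.σ i) (S.σ j) z) (∑ k, c k • b k j w)
  rw [pq_sum]
  refine Finset.sum_congr rfl fun k _ => ?_
  congr 1
  exact Hol2.rel (hb k) i j z hz w hw h

theorem hol2_subK (S : Sheets d E Γ) {s s' : Fin S.N → Cm d → V2 d} (h : Hol2 S s)
    (h' : Hol2 S s') : Hol2 S (fun i z => s i z - s' i z) := by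
  refine hol2_of (fun i => (Hol2.fm h i).sub isOpen_ball (Hol2.fm h' i)) ?_
  intro i j z hz w hw h0
  have k1 : s i z = pq (jm (S.σ i) (S.σ j) z) (s j w) := Hol2.rel h i j z hz w hw h0
  have k2 : s' i z = pq (jm (S.σ i) (S.σ j) z) (s' j w) := Hol2.rel h' i j z hz w hw h0
  rw [pq_sub, ← k1, ← k2]

/-- `b` is a basis of the space of closed holomorphic 2-forms. -/
structure Bas2 (S : Sheets d E Γ) {κ : Type} [Fintype κ] (b : κ → Fin S.N → Cm d → V2 d) :
    Prop where
  form : ∀ k, Hol2 S (b k)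
  indep : ∀ c : κ → ℂ, (∀ i, ∀ z ∈ ball (0 : Cm d) 3, ∑ k, c k • b k i z = 0) → c = 0
  span : ∀ s : Fin S.N → Cm d → V2 d, Hol2 S s →
    ∃ c : κ → ℂ, ∀ i, ∀ z ∈ ball (0 : Cm d) 3, s i z = ∑ k, c k • b k i z

theorem Ent.ev_lin {N : ℕ} {Λ κ : Type} [Fintype κ] (e : Ent N d Λ) (c : κ → ℂ)
    (b : κ → Fin N → Cm d → V2 d) (l : Λ) :
    e.ev (lin b c) l = ∑ k, c k * e.ev (b k) l := by
  show (∑ k, c k • b k (e.I l) (e.z l) : V2 d) (e.a l) (e.b l) = _
  rw [Finset.sum_apply, Finset.sum_apply]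
  rfl

theorem Ent.ev_congr {N : ℕ} {Λ : Type} (e : Ent N d Λ) {s s' : Fin N → Cm d → V2 d}
    (h : ∀ i, ∀ z ∈ ball (0 : Cm d) 3, s i z = s' i z) (l : Λ) : e.ev s l = e.ev s' l := by
  unfold Ent.ev
  rw [h (e.I l) (e.z l) (ball_subset_ball (by norm_num) (e.mem l))]

/-- The values of the combinations of `b`. -/
def evL {N : ℕ} {Λ κ : Type} [Fintype κ] (e : Ent N d Λ) (b : κ → Fin N → Cm d → V2 d) (l : Λ) :
    (κ → ℂ) →ₗ[ℂ] ℂ := ∑ k, (e.ev (b k) l) • LinearMap.proj k

theorem evL_apply {N : ℕ} {Λ κ : Type} [Fintype κ] (e : Ent N d Λ)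
    (b : κ → Fin N → Cm d → V2 d) (l : Λ) (c : κ → ℂ) :
    evL e b l c = ∑ k, c k * e.ev (b k) l := by
  unfold evL
  rw [LinearMap.sum_apply]
  exact Finset.sum_congr rfl fun k _ => mul_comm _ _

/-- One more entry. -/
def Ent.snoc {N n : ℕ} (e : Ent N d (Fin n)) (i : Fin N) (z : Cm d) (a b : Fin d)
    (hz : z ∈ ball (0 : Cm d) 2) : Ent N d (Fin (n + 1)) where
  I := Fin.snoc (α := fun _ => Fin N) e.I i
  z := Fin.snoc (α := fun _ => Cm d) e.z z
  a := Fin.snoc (α := fun _ => Fin d) e.a a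
  b := Fin.snoc (α := fun _ => Fin d) e.b b
  mem l := by
    refine Fin.lastCases ?_ (fun l => ?_) l
    · simpa using hz
    · simpa using e.mem l

theorem Ent.snoc_last {N n : ℕ} (e : Ent N d (Fin n)) (i : Fin N) (z : Cm d) (a b : Fin d)
    (hz : z ∈ ball (0 : Cm d) 2) (u : Fin N → Cm d → V2 d) :
    (e.snoc i z a b hz).ev u (Fin.last n) = u i z a b := by
  simp [Ent.ev, Ent.snoc]

theorem Ent.snoc_cast {N n : ℕ} (e : Ent N d (Fin n)) (i : Fin N) (z : Cm d) (a b : Fin d)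
    (hz : z ∈ ball (0 : Cm d) 2) (u : Fin N → Cm d → V2 d) (l : Fin n) :
    (e.snoc i z a b hz).ev u l.castSucc = e.ev u l := by
  simp [Ent.ev, Ent.snoc]

section
variable [Subsingleton Γ]

/-- Entries which determine the forms on one manifold. -/
theorem exists_ent (S : Sheets d E Γ) {κ : Type} [Fintype κ] {b : κ → Fin S.N → Cm d → V2 d}
    (hb : Bas2 S b) (i₀ : Fin S.N) (hd : 0 < d) :
    ∃ e : Ent S.N d (Fin (Fintype.card κ)), DetK S e := by
  classical
  have key : ∀ n : ℕ, n ≤ Fintype.card κ → ∃ e : Ent S.N d (Fin n),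
      Module.finrank ℂ (⨅ l, LinearMap.ker (evL e b l) : Submodule ℂ (κ → ℂ)) ≤
        Fintype.card κ - n := by
    intro n
    induction n with
    | zero =>
      intro _
      refine ⟨⟨Fin.elim0, Fin.elim0, Fin.elim0, Fin.elim0, fun l => l.elim0⟩, ?_⟩
      refine (Submodule.finrank_le _).trans ?_
      simp
    | succ n ih =>
      intro hn
      obtain ⟨e, he⟩ := ih (by omega)
      set K : Submodule ℂ (κ → ℂ) := ⨅ l, LinearMap.ker (evL e b l) with hK
      have hle : ∀ (i : Fin S.N) (z : Cm d) (a b' : Fin d) (hz : z ∈ ball (0 : Cm d) 2),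
          (⨅ l, LinearMap.ker (evL (e.snoc i z a b' hz) b l) : Submodule ℂ (κ → ℂ)) ≤ K := by
        intro i z a b' hz c hc
        rw [hK, Submodule.mem_iInf]
        rw [Submodule.mem_iInf] at hc
        intro l
        have h1 := hc l.castSucc
        rw [LinearMap.mem_ker, evL_apply] at h1 ⊢
        simpa only [Ent.snoc_cast] using h1
      by_cases hbot : K = ⊥
      · refine ⟨e.snoc i₀ 0 ⟨0, hd⟩ ⟨0, hd⟩ (by simp), ?_⟩
        have h1 := hle i₀ 0 ⟨0, hd⟩ ⟨0, hd⟩ (by simp)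
        rw [hbot, le_bot_iff] at h1
        rw [h1, finrank_bot]
        exact Nat.zero_le _
      · obtain ⟨c, hcK, hc0⟩ := Submodule.exists_mem_ne_zero_of_ne_bot hbot
        have h1 : ∃ i, ∃ z ∈ ball (0 : Cm d) 3, ∑ k, c k • b k i z ≠ 0 := by
          by_contra hcon
          push Not at hcon
          exact hc0 (hb.indep c hcon)
        obtain ⟨i, z, hz, hne⟩ := h1
        obtain ⟨j, w, hw, he'⟩ := cover1 S (S.σ i z)
        have hw3 : w ∈ ball (0 : Cm d) 3 := Sh.mem3 hw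
        have hw2 : w ∈ ball (0 : Cm d) 2 := by rw [mem_ball_zero_iff]; linarith
        have hs := hol2_lin S hb.form c
        have h2 : (∑ k, c k • b k j w : V2 d) ≠ 0 := by
          intro h0
          have h4 : (∑ k, c k • b k i z : V2 d) =
              pq (jm (S.σ i) (S.σ j) z) (∑ k, c k • b k j w) :=
            Hol2.rel hs i j z hz w hw3 he'.symm
          rw [h0, pq_zero] at h4
          exact hne h4
        obtain ⟨a, b', hab⟩ := ne_entry h2
        refine ⟨e.snoc j w a b' hw2, ?_⟩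
        have h3 : (⨅ l, LinearMap.ker (evL (e.snoc j w a b' hw2) b l) : Submodule ℂ (κ → ℂ)) <
            K := by
          refine lt_of_le_of_ne (hle j w a b' hw2) fun h => ?_
          rw [← h, Submodule.mem_iInf] at hcK
          have h4 := hcK (Fin.last n)
          rw [LinearMap.mem_ker, evL_apply] at h4
          simp only [Ent.snoc_last] at h4
          apply hab
          rw [Finset.sum_apply, Finset.sum_apply]
          exact h4
        have h4 := Submodule.finrank_lt_finrank_of_lt h3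
        omega
  obtain ⟨e, he⟩ := key _ le_rfl
  refine ⟨e, fun s hs h0 i z hz => ?_⟩
  rw [Nat.sub_self, Nat.le_zero, Submodule.finrank_eq_zero] at he
  obtain ⟨c, hc⟩ := hb.span s hs
  have h1 : c ∈ (⨅ l, LinearMap.ker (evL e b l) : Submodule ℂ (κ → ℂ)) := by
    rw [Submodule.mem_iInf]
    intro l
    rw [LinearMap.mem_ker, evL_apply, ← Ent.ev_lin, ← e.ev_congr (s' := lin b c) hc l]
    exact h0 l
  rw [he, Submodule.mem_bot] at h1
  refine (hc i z hz).trans ?_
  rw [h1]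
  exact Finset.sum_eq_zero fun k _ => zero_smul ℂ (b k i z)

variable [T2Space E] [ContinuousConstSMul Γ E]

/-- **Grauert**: if the spaces of closed holomorphic 2-forms have constant dimension, they have bases
which depend holomorphically on the parameter, dual to finitely many entries. -/
theorem grauertK (𝓕 : Fam p d E Γ) {κ : Type} [Fintype κ] (hd : 0 < d)
    (h1 : ∀ t (ht : t ∈ 𝓕.T), ∃ b : κ → Fin 𝓕.N → Cm d → V2 d, Bas2 (𝓕.at t ht) b)
    {t₀ : Cm p} (ht₀ : t₀ ∈ 𝓕.T) (i₀ : Fin 𝓕.N) :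
    ∃ (T' : Set (Cm p)) (u : Fin (Fintype.card κ) → Fin 𝓕.N → Cm p × Cm d → V2 d)
      (e : Ent 𝓕.N d (Fin (Fintype.card κ))), T' ⊆ 𝓕.T ∧ IsOpen T' ∧ t₀ ∈ T' ∧
      (∀ k i, ∀ t ∈ T', ∀ z ∈ ball (0 : Cm d) 3, AnalyticAt ℂ (u k i) (t, z)) ∧
      (∀ t (ht : t ∈ 𝓕.T), t ∈ T' → DetK (𝓕.at t ht) e ∧
        Bas2 (𝓕.at t ht) (fun k i z => u k i (t, z)) ∧
        ∀ k l, e.ev (fun i z => u k i (t, z)) l = if l = k then 1 else 0) := by
  classical
  obtain ⟨b₀, hb₀⟩ := h1 t₀ ht₀
  obtain ⟨e, he⟩ : ∃ e : Ent 𝓕.N d (Fin (Fintype.card κ)), DetK (𝓕.at t₀ ht₀) e :=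
    exists_ent (𝓕.at t₀ ht₀) hb₀ i₀ hd
  set T' : Set (Cm p) := {t | ∃ ht : t ∈ 𝓕.T, DetK (𝓕.at t ht) e} with hT'def
  have hT' : T' ⊆ 𝓕.T := fun t ht => ht.1
  have hdet : ∀ t (ht : t ∈ T'), DetK (𝓕.at t (hT' ht)) e := fun t ht => ht.2
  have hopen : IsOpen T' := by
    rw [isOpen_iff_mem_nhds]
    intro t ht
    filter_upwards [detK_open 𝓕 i₀ (hT' ht) (hdet t ht), 𝓕.isOpen.mem_nhds (hT' ht)] with t' k1 k2
    exact ⟨k2, k1 k2⟩
  have h₀ : t₀ ∈ T' := ⟨ht₀, he⟩
  have hex : ∀ (k : Fin (Fintype.card κ)) (t : Cm p), ∃ u : Fin 𝓕.N → Cm d → V2 d,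
      ∀ ht : t ∈ T', Hol2 (𝓕.at t (hT' ht)) u ∧ ∀ l, e.ev u l = if l = k then 1 else 0 := by
    intro k t
    by_cases ht : t ∈ T'
    swap
    · exact ⟨fun _ _ => 0, fun h => absurd h ht⟩
    obtain ⟨b, hb⟩ := h1 t (hT' ht)
    set L : (κ → ℂ) →ₗ[ℂ] (Fin (Fintype.card κ) → ℂ) := LinearMap.pi fun l => evL e b l with hL
    have hinj : Function.Injective L := by
      rw [← LinearMap.ker_eq_bot, Submodule.eq_bot_iff]
      intro c hc
      refine hb.indep c ?_
      refine hdet t ht _ (hol2_lin _ hb.form c) fun l => ?_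
      rw [LinearMap.mem_ker] at hc
      have h2 := congrFun hc l
      rw [hL, LinearMap.pi_apply, evL_apply] at h2
      exact (Ent.ev_lin e c b l).trans h2
    have hsur : Function.Surjective L := by
      refine (LinearMap.injective_iff_surjective_of_finrank_eq_finrank ?_).1 hinj
      simp
    obtain ⟨c, hc⟩ := hsur fun l => if l = k then 1 else 0
    refine ⟨lin b c, fun _ => ⟨hol2_lin _ hb.form c, fun l => ?_⟩⟩
    have h2 := congrFun hc l
    rw [hL, LinearMap.pi_apply, evL_apply] at h2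
    exact (Ent.ev_lin e c b l).trans h2
  choose u hu using hex
  have hdat : ∀ k, DatM 𝓕 T' (u k) := fun k =>
    ⟨hT', hopen, fun t ht => Hol2.fm (hu k t ht).1, fun t ht i j z hz w hw h =>
      Hol2.rel (hu k t ht).1 i j z hz w hw h⟩
  refine ⟨T', fun k i q => u k q.1 i q.2, e, hT', hopen, h₀, fun k i t ht z hz => ?_,
    fun t ht htT => ⟨hdet t htT, ⟨fun k => (hu k t htT).1, fun c hc => ?_, fun s hs => ?_⟩,
      fun k l => (hu k t htT).2 l⟩⟩
  · exact (hdat k).analyticK i₀ hdet (c₀ := fun l => if l = k then 1 else 0)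
      (fun t ht l => (hu k t ht).2 l) i t ht z hz
  · funext l
    have h2 : e.ev (lin (fun k => u k t) c) l = 0 := by
      exact e.ev_congr (s := lin (fun k => u k t) c) (s' := fun _ _ => 0) hc l
    rw [Ent.ev_lin] at h2
    simp only [fun k => (hu k t htT).2 l] at h2
    simpa using h2
  · refine ⟨fun l => e.ev s l, fun i z hz => ?_⟩
    have h2 := hdet t htT _ (hol2_subK (𝓕.at t ht) hs
      (hol2_lin (𝓕.at t ht) (fun k => (hu k t htT).1) fun l => e.ev s l)) (fun l => ?_) i z hz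
    · exact sub_eq_zero.1 h2
    · show e.ev s l - e.ev (lin (fun k => u k t) fun l => e.ev s l) l = 0
      rw [Ent.ev_lin]
      simp only [fun k => (hu k t htT).2 l]
      simp

/-- **Grauert, one form missing**: `v` is a continuous family of closed holomorphic 2-forms, which
becomes a basis by one more form in all the fibres. -/
theorem grauertU (𝓕 : Fam p d E Γ) {κ : Type} [Fintype κ] (hd : 0 < d)
    (v : κ → Fin 𝓕.N → Cm p × Cm d → V2 d)
    (hv : ∀ k i, ∀ t ∈ 𝓕.T, ∀ z ∈ ball (0 : Cm d) 3, ContinuousAt (v k i) (t, z))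
    (h1 : ∀ t (ht : t ∈ 𝓕.T), ∃ s : Fin 𝓕.N → Cm d → V2 d,
      Bas2 (𝓕.at t ht) (fun o : Option κ => o.elim s fun k i z => v k i (t, z)))
    {t₀ : Cm p} (ht₀ : t₀ ∈ 𝓕.T) (i₀ : Fin 𝓕.N) :
    ∃ (T' : Set (Cm p)) (s : Fin 𝓕.N → Cm p × Cm d → V2 d), T' ⊆ 𝓕.T ∧ IsOpen T' ∧ t₀ ∈ T' ∧
      (∀ i, ∀ t ∈ T', ∀ z ∈ ball (0 : Cm d) 3, AnalyticAt ℂ (s i) (t, z)) ∧
      ∀ t (ht : t ∈ 𝓕.T), t ∈ T' → Bas2 (𝓕.at t ht)
        (fun o : Option κ => o.elim (fun i z => s i (t, z)) fun k i z => v k i (t, z)) := by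
  classical
  obtain ⟨T₁, u, e, hT₁, hT₁o, h₁, hu, hB⟩ := grauertK 𝓕 (κ := Option κ) hd
    (fun t ht => by
      obtain ⟨s, hs⟩ := h1 t ht
      exact ⟨_, hs⟩) ht₀ i₀
  obtain ⟨s₀, hs₀⟩ := h1 t₀ ht₀
  let σ : Option κ ≃ Fin (Fintype.card (Option κ)) := Fintype.equivFin (Option κ)
  -- the matrix
  let M : Cm p → Matrix (Fin (Fintype.card (Option κ))) (Option κ) ℂ := fun t l o =>
    o.elim (e.ev s₀ l) fun k => e.ev (fun i z => v k i (t, z)) l
  let M' : Cm p → Matrix (Fin (Fintype.card (Option κ))) (Fin (Fintype.card (Option κ))) ℂ :=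
    fun t => (M t).submatrix id σ.symm
  have hMc : ContinuousAt (fun t => (M' t).det) t₀ := by
    have h2 : ∀ l l', ContinuousAt (fun t => M' t l l') t₀ := by
      intro l l'
      show ContinuousAt (fun t => M t l (σ.symm l')) t₀
      rcases h3 : σ.symm l' with _ | k
      · exact continuousAt_const
      · show ContinuousAt (fun t => v k (e.I l) (t, e.z l) (e.a l) (e.b l)) t₀
        have h4 := hv k (e.I l) t₀ ht₀ (e.z l) (ball_subset_ball (by norm_num) (e.mem l))
        have h5 : ContinuousAt (fun t : Cm p => (t, e.z l)) t₀ := by fun_prop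
        have h6 : ContinuousAt (fun t => v k (e.I l) (t, e.z l)) t₀ :=
          ContinuousAt.comp (g := v k (e.I l)) h4 h5
        exact (continuousAt_pi.1 ((continuousAt_pi.1 h6) (e.a l))) (e.b l)
    simp only [Matrix.det_apply]
    exact tendsto_finsetSum _ fun τ _ => (tendsto_finsetProd _ fun l _ => h2 _ _).const_smul _
  -- it is invertible at `t₀`
  have hM0 : (M' t₀).det ≠ 0 := by
    intro h2
    obtain ⟨c, hc0, hc⟩ := Matrix.exists_mulVec_eq_zero_iff.2 h2
    apply hc0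
    have h3 : (fun o => c (σ o)) = 0 := by
      refine hs₀.indep _ ?_
      refine (hB t₀ ht₀ h₁).1 _ (hol2_lin _ hs₀.form fun o => c (σ o)) fun l => ?_
      refine (Ent.ev_lin e _ _ l).trans ?_
      have h4 := congrFun hc l
      have h5 : (∑ l', M t₀ l (σ.symm l') * c l') = 0 := h4
      rw [← Equiv.sum_comp σ] at h5
      refine Eq.trans ?_ h5
      refine Finset.sum_congr rfl fun o _ => ?_
      rw [Equiv.symm_apply_apply, mul_comm]
      rcases o with _ | k
      · rfl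
      · rfl
    funext l
    have h4 := congrFun h3 (σ.symm l)
    simpa using h4
  set s : Fin 𝓕.N → Cm p × Cm d → V2 d := fun i q => ∑ l, e.ev s₀ l • u l i q with hs
  have hopen : ∀ᶠ t in 𝓝 t₀, (M' t).det ≠ 0 ∧ t ∈ T₁ :=
    (hMc.eventually_ne hM0).and (hT₁o.mem_nhds h₁)
  obtain ⟨T', hT', hT'o, h₀⟩ := _root_.mem_nhds_iff.1 hopen
  refine ⟨T', s, fun t ht => hT₁ (hT' ht).2, hT'o, h₀, fun i t ht z hz => ?_, fun t ht htT => ?_⟩
  · have h2 := (hT' ht).2
    simp only [hs]
    refine Finset.analyticAt_fun_sum _ fun l _ => ?_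
    exact AnalyticAt.smul (f := fun _ : Cm p × Cm d => e.ev s₀ l) (g := u l i) analyticAt_const
      (hu l i t h2 z hz)
  obtain ⟨hdt, hTt⟩ := hT' htT
  obtain ⟨hD, hBt, hev⟩ := hB t ht hTt
  obtain ⟨s₁, hs₁⟩ := h1 t ht
  have hsev : ∀ l, e.ev (fun i z => s i (t, z)) l = e.ev s₀ l := by
    intro l
    have h2 : (fun i z => s i (t, z)) = lin (fun k i z => u k i (t, z)) fun l => e.ev s₀ l := rfl
    rw [h2, Ent.ev_lin]
    simp only [fun k => hev k l]
    simp
  have hform : ∀ o : Option κ, Hol2 (𝓕.at t ht)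
      (o.elim (fun i z => s i (t, z)) fun k i z => v k i (t, z) : Fin 𝓕.N → Cm d → V2 d) := by
    intro o
    rcases o with _ | k
    · exact hol2_lin (𝓕.at t ht) hBt.form fun l => e.ev s₀ l
    · exact hs₁.form (some k)
  have hlin : ∀ (c : Option κ → ℂ) l, e.ev (lin (fun o : Option κ =>
      (o.elim (fun i z => s i (t, z)) fun k i z => v k i (t, z) : Fin 𝓕.N → Cm d → V2 d)) c) l =
        (M' t).mulVec (fun l' => c (σ.symm l')) l := by
    intro c l
    rw [Ent.ev_lin]
    show _ = ∑ l', M t l (σ.symm l') * c (σ.symm l')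
    rw [← Equiv.sum_comp σ]
    refine Finset.sum_congr rfl fun o _ => ?_
    rw [Equiv.symm_apply_apply, mul_comm]
    congr 1
    rcases o with _ | k
    · exact hsev l
    · rfl
  refine ⟨hform, fun c hc => ?_, fun x hx => ?_⟩
  · have h2 : (M' t).mulVec (fun l' => c (σ.symm l')) = 0 := by
      funext l
      rw [← hlin]
      exact e.ev_congr (s' := fun _ _ => 0) hc l
    have h3 : (fun l' => c (σ.symm l')) = 0 := by
      by_contra h4
      exact hdt (Matrix.exists_mulVec_eq_zero_iff.1 ⟨_, h4, h2⟩)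
    funext o
    have h4 := congrFun h3 (σ o)
    simpa using h4
  · have hunit : IsUnit (M' t).det := isUnit_iff_ne_zero.2 hdt
    set c : Option κ → ℂ := fun o => (M' t)⁻¹.mulVec (fun l => e.ev x l) (σ o) with hc
    refine ⟨c, fun i z hz => ?_⟩
    have h2 := hD _ (hol2_subK (𝓕.at t ht) hx (hol2_lin (𝓕.at t ht) hform c)) (fun l => ?_) i z hz
    · exact sub_eq_zero.1 h2
    · show e.ev x l - e.ev (lin _ c) l = 0
      rw [hlin]
      have h3 : (fun l' => c (σ.symm l')) = (M' t)⁻¹.mulVec (fun l => e.ev x l) := by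
        funext l'
        simp [hc]
      rw [h3, Matrix.mulVec_mulVec, Matrix.mul_nonsing_inv _ hunit, Matrix.one_mulVec, sub_self]

end

end Vale.Agent.P281.H594.HK
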